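import Vale.Agent.P257.H93.Add

/-! # P257 / H93 / Yon : cochains of the group of additive strict series as polynomials

`CobP p n = F_p[t_i^{(k)}]`, `X (k, i)` is the coefficient of `x^(p^(i+1))` of the `k`-th
automorphism; for a homogeneous chain `g` this is the automorphism `g_k g_{k+1}⁻¹`. -/

noncomputable section

namespace Vale.Agent.P257.H93

open Vale.Agent.P251.F Vale.Agent.P251.F.F3 Vale.Agent.P217

variable {p : ℕ}

instance fpA_zmod (p : ℕ) : FpA p (ZMod p) := ⟨by simp⟩

instance fpA_mvPolynomial {σ : Type} {R : Type} [CommRing R] [h : FpA p R] :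
    FpA p (MvPolynomial σ R) := ⟨by
  rw [← map_natCast MvPolynomial.C, h.cast, map_zero]⟩

instance fpA_polynomial {R : Type} [CommRing R] [h : FpA p R] : FpA p (Polynomial R) := ⟨by
  rw [← map_natCast Polynomial.C, h.cast, map_zero]⟩

/-- the ring of functions on `n`-tuples of strict automorphisms of the additive law -/
abbrev CobP (p n : ℕ) : Type := MvPolynomial (Fin n × ℕ) (ZMod p)

section

variable {B C : Type} [CommRing B] [CommRing C] [FpA p B] [FpA p C] {n : ℕ}

/-- `F_p → B` -/
def zm (p : ℕ) (B : Type) [CommRing B] [h : FpA p B] : ZMod p →+* B :=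
  ZMod.castHom (show ringChar B ∣ p from (ringChar.spec B p).1 h.cast) B

variable (n) in
/-- evaluation at a homogeneous chain -/
def evG (g : ℕ → addS B) : CobP p n →+* B :=
  MvPolynomial.eval₂Hom (zm p B) fun ki =>
    tc p (ki.2 + 1) (((g ki.1 * (g (ki.1 + 1))⁻¹ : addS B) : strict B) : InvSeries B)

@[simp] theorem evG_X (g : ℕ → addS B) (ki : Fin n × ℕ) : evG (p := p) n g (MvPolynomial.X ki) =
    tc p (ki.2 + 1) (((g ki.1 * (g (ki.1 + 1))⁻¹ : addS B) : strict B) : InvSeries B) := by
  simp [evG]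

omit [FpA p B] in
theorem hom_ext_P {f g : CobP p n →+* B} (h : ∀ ki, f (MvPolynomial.X ki) = g (MvPolynomial.X ki)) :
    f = g := MvPolynomial.ringHom_ext' (Subsingleton.elim _ _) h

theorem evG_congr {g g' : ℕ → addS B} (h : ∀ k ≤ n, g k = g' k) :
    evG (p := p) n g = evG n g' := by
  apply hom_ext_P
  intro ki
  rw [evG_X, evG_X, h _ ki.1.2.le, h _ ki.1.2]

theorem evG_mul_inv (g : ℕ → addS B) (h : addS B) :
    evG (p := p) n (fun k => g k * h⁻¹) = evG n g := by
  apply hom_ext_P
  intro ki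
  rw [evG_X, evG_X]
  congr 3
  group

theorem comp_evG (φ : B →+* C) (g : ℕ → addS B) :
    φ.comp (evG (p := p) n g) = evG n (fun k => mapA φ (g k)) := by
  apply hom_ext_P
  intro ki
  rw [RingHom.comp_apply, evG_X, evG_X, ← map_tc, ← map_inv, ← map_mul, val_mapA]

end

section univ

variable [hp : Fact p.Prime]

/-- an additive strict series as an element of `addS` -/
def mkA {B : Type} [CommRing B] [FpA p B] (t : ℕ → B) : addS B :=
  ⟨⟨addMk p t, addMk_mem p t⟩, (isAdd_iff (addMk_mem p t)).1 (isAdd_addMk p t)⟩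

@[simp] theorem val_mkA {B : Type} [CommRing B] [FpA p B] (t : ℕ → B) :
    (((mkA (p := p) t : addS B) : strict B) : InvSeries B) = addMk p t := rfl

theorem isAdd_val {B : Type} [CommRing B] [FpA p B] (g : addS B) :
    IsAdd p ((g : strict B) : InvSeries B) := (isAdd_iff g.1.2).2 g.2

theorem addS_ext {B : Type} [CommRing B] [FpA p B] {f g : addS B}
    (h : ∀ i, tc p (i + 1) ((f : strict B) : InvSeries B) =
      tc p (i + 1) ((g : strict B) : InvSeries B)) :
    f = g := by
  apply Subtype.ext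
  apply Subtype.ext
  refine IsAdd.ext (p := p) (isAdd_val f) (isAdd_val g) fun i => ?_
  rcases i with _ | i
  · rw [tc_zero f.1.2, tc_zero g.1.2]
  · exact h i

/-- the universal `k`-th automorphism -/
def aU (p n : ℕ) [Fact p.Prime] (k : ℕ) : addS (CobP p n) :=
  mkA (p := p) fun i => if h : k < n then MvPolynomial.X (⟨k, h⟩, i) else 0

/-- the universal chain -/
def gU (p n : ℕ) [Fact p.Prime] : ℕ → addS (CobP p n)
  | 0 => 1
  | k + 1 => (aU p n k)⁻¹ * gU p n k

theorem gU_mul_inv (n k : ℕ) : gU p n k * (gU p n (k + 1))⁻¹ = aU p n k := by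
  rw [gU]
  group

@[simp] theorem evG_gU (n : ℕ) : evG n (gU p n) = RingHom.id (CobP p n) := by
  apply hom_ext_P
  intro ki
  rw [evG_X, gU_mul_inv, aU, val_mkA, tc_addMk, dif_pos ki.1.2]
  rfl

theorem map_gU {B : Type} [CommRing B] [FpA p B] {n : ℕ} (g : ℕ → addS B) {k : ℕ} (hk : k ≤ n) :
    mapA (evG n g) (gU p n k) = g k * (g 0)⁻¹ := by
  induction k with
  | zero => rw [gU, map_one, mul_inv_cancel]
  | succ k ih =>
    rw [gU, map_mul, map_inv, ih (by omega)]
    have h : mapA (evG n g) (aU p n k) = g k * (g (k + 1))⁻¹ := by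
      apply addS_ext (p := p)
      intro i
      rw [val_mapA, aU, val_mkA, map_tc, tc_addMk, dif_pos (by omega), evG_X]
    rw [h]
    group

/-- cochains on additive strict series from polynomials -/
def ofP {n : ℕ} (z : CobP p n) : Coch (pt (addG p)) (triv (addG p)) n where
  f _ g := evG n g z
  nat φ _ g := by
    change evG n (fun k => mapA φ (g k)) z = φ (evG n g z)
    rw [← comp_evG]
    rfl
  loc _ g g' h := by rw [evG_congr h]
  eqv h _ g := by
    change evG n (fun k => g k * h⁻¹) z = evG n g z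
    rw [evG_mul_inv]

omit hp in
theorem ofP_f {n : ℕ} (z : CobP p n) {B : Type} [CommRing B] [FpA p B] (x : (pt (addG p)).obj B)
    (g : ℕ → (addG p).obj B) : (ofP z).f x g = evG n g z := rfl

/-- polynomials from cochains -/
def toP {n : ℕ} (F : Coch (pt (addG p)) (triv (addG p)) n) : CobP p n :=
  F.f (B := CobP p n) () (gU p n)

theorem toP_ofP {n : ℕ} (z : CobP p n) : toP (ofP z) = z := by
  rw [toP, ofP_f, evG_gU]
  rfl

theorem ofP_toP {n : ℕ} (F : Coch (pt (addG p)) (triv (addG p)) n) : ofP (toP F) = F := by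
  apply Coch.ext'
  intro B _ _ x g
  rw [ofP_f, toP]
  have h1 := F.nat (evG n g) () (gU p n)
  change _ = evG n g _ at h1
  rw [← h1]
  have h2 := F.eqv (g 0) () g
  change _ = F.f () g at h2
  rw [← h2]
  refine F.loc _ _ _ fun k hk => ?_
  exact map_gU g hk

/-- The Yoneda isomorphism. -/
def yonP (n : ℕ) : CobP p n ≃+ Coch (pt (addG p)) (triv (addG p)) n where
  toFun := ofP
  invFun := toP
  left_inv := toP_ofP
  right_inv := ofP_toP
  map_add' x y := Coch.ext' fun _ g => map_add (evG n g) x y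

@[simp] theorem yonP_apply {n : ℕ} (z : CobP p n) : yonP n z = ofP z := rfl
@[simp] theorem yonP_symm_apply {n : ℕ} (F : Coch (pt (addG p)) (triv (addG p)) n) :
    (yonP n).symm F = toP F := rfl

theorem ext_evG {n : ℕ} {x y : CobP p n}
    (h : ∀ {B : Type} [CommRing B] [FpA p B] (g : ℕ → addS B), evG n g x = evG n g y) : x = y := by
  have := h (gU p n)
  rwa [evG_gU] at this

/-! ### faces -/

/-- the `j`-th coface -/
def dl (n j : ℕ) : CobP p n →+* CobP p (n + 1) := evG n (del j (gU p (n + 1)))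

theorem evG_dl {B : Type} [CommRing B] [FpA p B] {n j : ℕ} (g : ℕ → addS B)
    (z : CobP p n) : evG (n + 1) g (dl n j z) = evG n (del j g) z := by
  have h : (evG (n + 1) g).comp (dl n j) = evG (p := p) n (del j g) := by
    rw [dl, comp_evG]
    have h1 : evG (p := p) n (fun k => mapA (evG (n + 1) g) (del j (gU p (n + 1)) k)) =
        evG n (fun k => del j g k * (g 0)⁻¹) := by
      apply evG_congr
      intro k hk
      simp only [del]
      split_ifs
      · exact map_gU g (by omega)
      · exact map_gU g (by omega)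
    rw [h1, evG_mul_inv]
  rw [← h]
  rfl

/-- the differential -/
def dP (n : ℕ) : CobP p n →+ CobP p (n + 1) :=
  ∑ j ∈ Finset.range (n + 2), ((-1 : ℤ) ^ j) • (dl n j : CobP p n →+* CobP p (n + 1)).toAddMonoidHom

theorem dP_apply (n : ℕ) (z : CobP p n) :
    dP n z = ∑ j ∈ Finset.range (n + 2), ((-1 : ℤ) ^ j) • dl n j z := by
  simp [dP, AddMonoidHom.finsetSum_apply]

theorem ofP_dP {n : ℕ} (z : CobP p n) : ofP (dP n z) = (ofP z).d := by
  apply Coch.ext'
  intro B _ _ x g
  rw [ofP_f, Coch.d_f, dS_apply, dP_apply, map_sum]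
  refine Finset.sum_congr rfl fun j _ => ?_
  rw [map_zsmul, evG_dl]
  rfl

theorem dP_dP (n : ℕ) (z : CobP p n) : dP (n + 1) (dP n z) = 0 := by
  apply (yonP (p := p) (n + 2)).injective
  rw [yonP_apply, ofP_dP, ofP_dP, Coch.d_d, map_zero]

theorem dl_X {n : ℕ} (j : ℕ) (ki : Fin n × ℕ) : dl n j (MvPolynomial.X ki) =
    if (ki.1 : ℕ) + 1 < j then MvPolynomial.X (ki.1.castSucc, ki.2)
    else if (ki.1 : ℕ) + 1 = j then
      MvPolynomial.X (ki.1.succ, ki.2) + MvPolynomial.X (ki.1.castSucc, ki.2) +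
      ∑ a ∈ Finset.range ki.2, (MvPolynomial.X (ki.1.castSucc, a) : CobP p (n + 1)) *
        MvPolynomial.X (ki.1.succ, ki.2 - (a + 1)) ^ (p ^ (a + 1))
    else MvPolynomial.X (ki.1.succ, ki.2) := by
  rw [dl, evG_X]
  have haU : ∀ (k : ℕ) (hk : k < n + 1) (i : ℕ), tc p (i + 1)
      (((aU p (n + 1) k : addS (CobP p (n + 1))) : strict (CobP p (n + 1))) :
        InvSeries (CobP p (n + 1))) = MvPolynomial.X (⟨k, hk⟩, i) := by
    intro k hk i
    rw [aU, val_mkA, tc_addMk, dif_pos hk]
  have hk := ki.1.2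
  split_ifs with h1 h2
  · rw [show del j (gU p (n + 1)) ki.1 * (del j (gU p (n + 1)) (ki.1 + 1))⁻¹ =
      aU p (n + 1) ki.1 by
        rw [← gU_mul_inv]; simp only [del]; rw [if_pos (by omega), if_pos h1]]
    rw [haU _ (by omega)]
    rfl
  · rw [show del j (gU p (n + 1)) ki.1 * (del j (gU p (n + 1)) (ki.1 + 1))⁻¹ =
      aU p (n + 1) ki.1 * aU p (n + 1) (ki.1 + 1) by
        rw [← gU_mul_inv, ← gU_mul_inv]; simp only [del]
        rw [if_pos (by omega), if_neg (by omega)]; group]
    rw [Subgroup.coe_mul, Subgroup.coe_mul, tc_mul (isAdd_val _), Finset.sum_range_succ',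
      Finset.sum_range_succ, tc_zero (aU p (n + 1) ki.1).1.2, Nat.sub_self,
      tc_zero (aU p (n + 1) (ki.1 + 1)).1.2, one_pow, mul_one, pow_zero, pow_one, one_mul,
      Nat.sub_zero, haU _ (by omega), haU _ (by omega)]
    have h3 : ∀ a ∈ Finset.range ki.2, tc p (a + 1)
        (((aU p (n + 1) ki.1 : addS (CobP p (n + 1))) : strict (CobP p (n + 1))) :
          InvSeries (CobP p (n + 1))) * tc p (ki.2 + 1 - (a + 1))
        (((aU p (n + 1) (ki.1 + 1) : addS (CobP p (n + 1))) : strict (CobP p (n + 1))) :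
          InvSeries (CobP p (n + 1))) ^ (p ^ (a + 1)) =
        MvPolynomial.X (ki.1.castSucc, a) * MvPolynomial.X (ki.1.succ, ki.2 - (a + 1)) ^ (p ^ (a + 1)) := by
      intro a ha
      rw [Finset.mem_range] at ha
      rw [haU _ (by omega), show ki.2 + 1 - (a + 1) = ki.2 - (a + 1) + 1 by omega,
        haU _ (by omega)]
      rfl
    rw [Finset.sum_congr rfl h3, add_assoc, add_comm (Finset.sum _ _)]
    congr 1
    exact add_comm _ _
  · rw [show del j (gU p (n + 1)) ki.1 * (del j (gU p (n + 1)) (ki.1 + 1))⁻¹ =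
      aU p (n + 1) (ki.1 + 1) by
        rw [← gU_mul_inv]; simp only [del]; rw [if_neg (by omega), if_neg (by omega)]]
    rw [haU _ (by omega)]
    rfl

end univ

end Vale.Agent.P257.H93

end
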