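import Vale.Agent.P257.H93.Wt
import Vale.Agent.P251.F.DetectT
import Vale.Agent.P257.H314.Inf

/-! # P257 / H93 / FP : evaluation of cobar functions at chains of additive automorphisms -/

noncomputable section

namespace Vale.Agent.P257.H93

open Vale.Agent.P251.F Vale.Agent.P251.F.F3 Vale.Agent.P217 Vale.Agent.P257.H314

variable {p : ℕ}

theorem vv_addLaw {B : Type} [CommRing B] (hB : (p : B) = 0) (k : ℕ) :
    vv p k (addLaw B) = 0 := by
  have h1 := multSeries_sub_mem (addLaw B).toFG (N := p ^ k + 1) (by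
    have : (addLaw B).toFG.toPowerSeries - (MvPowerSeries.X 0 + MvPowerSeries.X 1) = 0 :=
      sub_eq_zero.2 addLaw_ps
    rw [this]
    exact Ideal.zero_mem _) p
  rw [hB, map_zero, zero_mul, sub_zero] at h1
  exact mem_ordI_unit.1 h1 _ (Nat.lt_succ_self _)

theorem val_mapA' {B C : Type} [CommRing B] [CommRing C] (φ : B →+* C) (g : addS B) :
    (mapA φ g : strict C) = smapH φ (g : strict B) := rfl

section chain

variable {N : Type} [CommRing N] [LawRing N] {B C : Type} [CommRing B] [CommRing C]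

/-- the chain `g_0 x → g_1 x → … → g_n x` -/
def mkC (x : N →+* B) (n : ℕ) (g : ℕ → strict B) : Chain N n B where
  pt := LawRing.act (g 0 : InvSeries B) x
  g i := (g i : InvSeries B) * (g 0 : InvSeries B)⁻¹
  strict i := mul_mem (g i).2 (inv_mem (g 0).2)
  zero := mul_inv_cancel _

@[simp] theorem mkC_pt (x : N →+* B) (n : ℕ) (g : ℕ → strict B) :
    (mkC x n g).pt = LawRing.act (g 0 : InvSeries B) x := rfl
@[simp] theorem mkC_g (x : N →+* B) (n : ℕ) (g : ℕ → strict B) (i : Fin (n + 1)) :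
    (mkC x n g).g i = (g i : InvSeries B) * (g 0 : InvSeries B)⁻¹ := rfl

theorem mkC_congr (x : N →+* B) {n : ℕ} {g g' : ℕ → strict B} (h : ∀ k ≤ n, g k = g' k) :
    mkC x n g = mkC x n g' := by
  ext1
  · rw [mkC_pt, mkC_pt, h 0 (Nat.zero_le _)]
  · funext i
    rw [mkC_g, mkC_g, h 0 (Nat.zero_le _), h i (Nat.lt_succ_iff.1 i.2)]

theorem mkC_smul (x : N →+* B) {n : ℕ} (g : ℕ → strict B) (h : strict B) :
    mkC (LawRing.act (h : InvSeries B) x) n (fun k => g k * h⁻¹) = mkC x n g := by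
  ext1
  · rw [mkC_pt, mkC_pt, ← LawRing.act_mul, Subgroup.coe_mul, Subgroup.coe_inv,
      inv_mul_cancel_right]
  · funext i
    rw [mkC_g, mkC_g]
    simp only [Subgroup.coe_mul, Subgroup.coe_inv]
    group

theorem map_mkC (φ : B →+* C) (x : N →+* B) (n : ℕ) (g : ℕ → strict B) :
    (mkC x n g).map φ = mkC (φ.comp x) n (fun k => smapH φ (g k)) := by
  ext1
  · rw [Chain.map_pt, mkC_pt, mkC_pt, LawRing.comp_act]
    rfl
  · funext i
    rw [Chain.map_g, mkC_g, mkC_g, map_mul, map_inv]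
    rfl

/-- restriction of chains along a map of index sets -/
theorem res_mkC {m n : ℕ} (α : Fin (m + 1) → Fin (n + 1)) (x : N →+* B) (g g' : ℕ → strict B)
    (h : ∀ i : Fin (m + 1), g' i = g (α i)) : (mkC x n g).res α = mkC x m g' := by
  have h0 : g' 0 = g (α 0) := h 0
  ext1
  · rw [Chain.res_pt, mkC_pt, mkC_pt, mkC_g, ← LawRing.act_mul, inv_mul_cancel_right, h0]
  · funext i
    rw [Chain.res_g, mkC_g, mkC_g, mkC_g, h i, h0]
    group

theorem res_mkC_succAbove {n : ℕ} (j : Fin (n + 2)) (x : N →+* B) (g : ℕ → strict B) :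
    (mkC x (n + 1) g).res j.succAbove = mkC x n (del (j : ℕ) g) := by
  apply res_mkC
  intro i
  simp only [del]
  by_cases h : (i : ℕ) < j
  · rw [if_pos h, Fin.succAbove_of_castSucc_lt _ _ (by exact h)]
    rfl
  · rw [if_neg h, Fin.succAbove_of_le_castSucc _ _ (by
      rw [Fin.le_def]; exact not_lt.1 h)]
    rfl

theorem res_mkC_front {a b : ℕ} (x : N →+* B) (g : ℕ → strict B) :
    (mkC x (a + b) g).res (Cob.front a b) = mkC x a g :=
  res_mkC _ _ _ _ fun _ => rfl

theorem res_mkC_back {a b : ℕ} (x : N →+* B) (g : ℕ → strict B) :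
    (mkC x (a + b) g).res (Cob.back a b) = mkC x b (sh a g) :=
  res_mkC _ _ _ _ fun _ => rfl

theorem mkC_scale (x : N →+* B) (n : ℕ) (g : ℕ → strict B) (u : Bˣ) :
    (mkC x n g).scale u = mkC (LawRing.act (InvSeries.lin u)⁻¹ x) n (fun k => scS u (g k)) := by
  ext1
  · change LawRing.act (InvSeries.lin u)⁻¹ (LawRing.act (g 0 : InvSeries B) x) = _
    rw [mkC_pt, ← LawRing.act_mul, ← LawRing.act_mul, val_scS, mul_inv_cancel_right]
  · funext i
    change (InvSeries.lin u)⁻¹ * ((g i : InvSeries B) * (g 0 : InvSeries B)⁻¹) *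
      InvSeries.lin u = _
    rw [mkC_g, val_scS, val_scS]
    group

/-- every chain is of this form -/
theorem mkC_of_chain {n : ℕ} (c : Chain N n B) :
    mkC c.pt n (fun k => if h : k < n + 1 then ⟨c.g ⟨k, h⟩, c.strict _⟩ else 1) = c := by
  ext1
  · rw [mkC_pt, dif_pos (Nat.succ_pos n)]
    change LawRing.act (c.g 0) c.pt = c.pt
    rw [c.zero, LawRing.act_one]
  · funext i
    rw [mkC_g, dif_pos i.2, dif_pos (Nat.succ_pos n)]
    change c.g i * (c.g 0)⁻¹ = c.g i
    rw [c.zero, inv_one, mul_one]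

theorem ev_d_mkC {n : ℕ} (x : N →+* B) (g : ℕ → strict B) (z : Cob N n) :
    Cob.ev (mkC x (n + 1) g) (Cob.d n z) = dS n (fun g => Cob.ev (mkC x n g) z) g := by
  rw [Cob.ev_d, dS_apply, Finset.sum_range]
  refine Finset.sum_congr rfl fun j _ => ?_
  rw [res_mkC_succAbove]

end chain

/-! ### the additive point -/

section addpt

variable [hp : Fact p.Prime] {B C : Type} [CommRing B] [CommRing C]

theorem act_lift_addLaw {h : InvSeries B} (hh : h • addLaw B = addLaw B) :
    LawRing.act h (Laz.lift (addLaw B)) = Laz.lift (addLaw B) := by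
  rw [Laz.act_eq, Laz.univ_map_lift, hh]

variable (p)

/-- the additive point of `Laz / I_∞` -/
def aPt (B : Type) [CommRing B] [hB : FpA p B] : QIinf p →+* B :=
  QIinf.lift (addLaw B) (vv_addLaw hB.cast)

variable {p}

variable [FpA p B] [FpA p C]

omit hp in
theorem aPt_comp_mk : (aPt p B).comp (Ideal.Quotient.mk (Iinf p)) = Laz.lift (addLaw B) :=
  Ideal.Quotient.lift_comp_mk _ _ _

theorem law_map_aPt : (LawRing.law (N := QIinf p)).map (aPt p B) = addLaw B :=
  QIinf.law_map_lift _ _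

theorem comp_aPt (φ : B →+* C) : φ.comp (aPt p B) = aPt p C := by
  apply QIinf.hom_ext
  rw [law_map_aPt, ← Law.map_map, law_map_aPt, map_addLaw]

theorem act_aPt {h : InvSeries B} (hh : h • addLaw B = addLaw B) :
    LawRing.act h (aPt p B) = aPt p B := by
  apply QIinf.hom_ext
  rw [QIinf.act_eq, law_map_aPt, hh]

/-- the chain of additive automorphisms -/
def addC (p n : ℕ) [Fact p.Prime] {B : Type} [CommRing B] [FpA p B] (g : ℕ → addS B) :
    Chain (QIinf p) n B := mkC (aPt p B) n fun k => (g k : strict B)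

theorem map_addC (φ : B →+* C) (n : ℕ) (g : ℕ → addS B) :
    (addC p n g).map φ = addC p n (fun k => mapA φ (g k)) := by
  rw [addC, map_mkC, comp_aPt]
  rfl

theorem addC_congr {n : ℕ} {g g' : ℕ → addS B} (h : ∀ k ≤ n, g k = g' k) :
    addC p n g = addC p n g' := mkC_congr _ fun k hk => by rw [h k hk]

theorem addC_mul_inv {n : ℕ} (g : ℕ → addS B) (h : addS B) :
    addC p n (fun k => g k * h⁻¹) = addC p n g := by
  have := mkC_smul (aPt p B) (n := n) (fun k => (g k : strict B)) (h : strict B)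
  rw [act_aPt h.2] at this
  exact this

theorem addC_scale (n : ℕ) (g : ℕ → addS B) (u : Bˣ) :
    (addC p n g).scale u = addC p n (fun k => scA u (g k)) := by
  rw [addC, mkC_scale, act_aPt (lin_inv_smul_addLaw u)]
  rfl

/-- the comparison map: evaluation at the universal chain of additive automorphisms -/
def fI (p n : ℕ) [Fact p.Prime] : Cob (QIinf p) n →+* CobP p n := Cob.ev (addC p n (gU p n))

/-- the characterization of `fI` -/
theorem evG_fI {n : ℕ} (g : ℕ → addS B) (z : Cob (QIinf p) n) :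
    evG n g (fI p n z) = Cob.ev (addC p n g) z := by
  rw [fI, ← Cob.ev_map, map_addC]
  congr 1
  rw [← addC_mul_inv g (g 0)]
  rw [addC_congr (p := p) fun k hk => map_gU (p := p) g hk]

theorem fI_d {n : ℕ} (z : Cob (QIinf p) n) : fI p (n + 1) (Cob.d n z) = dP n (fI p n z) := by
  apply ext_evG
  intro B _ _ g
  rw [evG_fI, addC, ev_d_mkC, ← ofP_f (dP n (fI p n z)) (), ofP_dP, Coch.d_f, dS_apply,
    dS_apply]
  refine Finset.sum_congr rfl fun j _ => ?_
  rw [ofP_f, evG_fI, addC]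
  congr 4
  funext k
  simp only [del]
  split_ifs <;> rfl

theorem fI_cup {a b : ℕ} (x : Cob (QIinf p) a) (y : Cob (QIinf p) b) :
    fI p (a + b) (Cob.cup x y) = cupP (fI p a x) (fI p b y) := by
  apply ext_evG
  intro B _ _ g
  rw [evG_fI, Cob.ev_cup, addC, res_mkC_front, res_mkC_back, evG_cupP, evG_fI, evG_fI]
  rfl

theorem fI_wt {n : ℕ} {w : ℤ} {z : Cob (QIinf p) n} (hz : Cob.IsWt w z) :
    IsWtP p n w (fI p n z) := by
  rw [← isWt_ofP]
  intro B _ _ u _ g
  change evG n (fun k => scA u (g k)) (fI p n z) = _ * evG n g (fI p n z)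
  rw [evG_fI, evG_fI, ← addC_scale, hz]

/-- `fI` on variables -/
theorem evG_fI_X {n : ℕ} (g : ℕ → addS B) (im : Fin n × ℕ) :
    evG n g (fI p n (MvPolynomial.X im)) =
      ((((g (im.1 + 1) * (g 0)⁻¹ : addS B) : strict B) : InvSeries B)).c (im.2 + 1) := by
  rw [evG_fI, Cob.ev_X]
  rfl

/-- the comparison map from the cobar complex of `Laz` -/
def fP (p n : ℕ) [Fact p.Prime] : Cob Laz n →+* CobP p n :=
  (fI p n).comp (Cob.mapRing (Ideal.Quotient.mk (Iinf p)) n)

theorem fP_apply {n : ℕ} (z : Cob Laz n) :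
    fP p n z = fI p n (Cob.mapRing (Ideal.Quotient.mk (Iinf p)) n z) := rfl

/-- the chain of additive automorphisms as a chain over `Laz` -/
theorem evG_fP {n : ℕ} (g : ℕ → addS B) (z : Cob Laz n) :
    evG n g (fP p n z) = Cob.ev (mkC (Laz.lift (addLaw B)) n fun k => (g k : strict B)) z := by
  rw [fP_apply, evG_fI]
  have : (Cob.ev (addC p n g)).comp (Cob.mapRing (Ideal.Quotient.mk (Iinf p)) n) =
      Cob.ev (mkC (Laz.lift (addLaw B)) n fun k => (g k : strict B)) := by
    refine MvPolynomial.ringHom_ext (fun a => ?_) (fun im => ?_)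
    · rw [RingHom.comp_apply, Cob.mapRing, MvPolynomial.map_C, Cob.ev_C, Cob.ev_C, addC, mkC_pt,
        mkC_pt, act_aPt (g 0).2, act_lift_addLaw (g 0).2, ← aPt_comp_mk (p := p)]
      rfl
    · rw [RingHom.comp_apply, Cob.mapRing, MvPolynomial.map_X, Cob.ev_X, Cob.ev_X]
      rfl
  rw [← this]
  rfl

theorem fP_IC {h n : ℕ} {z : Cob Laz n} (hz : z ∈ IC p h n) : fP p n z = 0 := by
  rw [fP_apply, (mapRing_inf_eq_zero_iff z).2 (mem_ICinf_iff.2 ⟨h, hz⟩), map_zero]

theorem fP_d {n : ℕ} (z : Cob Laz n) : fP p (n + 1) (Cob.d n z) = dP n (fP p n z) := by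
  rw [fP_apply, Cob.mapRing_d (isLawHom_mkInf p), fI_d]
  rfl

theorem fP_cup {a b : ℕ} (x : Cob Laz a) (y : Cob Laz b) :
    fP p (a + b) (Cob.cup x y) = cupP (fP p a x) (fP p b y) := by
  rw [fP_apply, Cob.mapRing_cup (isLawHom_mkInf p), fI_cup]
  rfl

theorem fP_wt {n : ℕ} {w : ℤ} {z : Cob Laz n} (hz : Cob.IsWt w z) : IsWtP p n w (fP p n z) :=
  fI_wt (hz.mapRing (isLawHom_mkInf p))

end addpt

end Vale.Agent.P257.H93

end
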