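import Vale.Agent.P257.H93.Cup
import Vale.Agent.P251.F.Grade

/-! # P257 / H93 / Wt : weights of polynomials and cochains -/

noncomputable section

namespace Vale.Agent.P257.H93

open Vale.Agent.P251.F Vale.Agent.P251.F.F3 Vale.Agent.P217 LaurentPolynomial

variable {p : ℕ}

theorem c_scale {B : Type} [CommRing B] (u : Bˣ) (g : InvSeries B) (n : ℕ) :
    ((InvSeries.lin u)⁻¹ * g * InvSeries.lin u).c n = (u : B) ^ n * g.c n := by
  have h1 : ((InvSeries.lin u)⁻¹ * g * InvSeries.lin u).val =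
      PowerSeries.C ((u⁻¹ : Bˣ) : B) * PowerSeries.rescale (u : B) g.val := by
    have h2 : ((InvSeries.lin u)⁻¹ * g).val = PowerSeries.C ((u⁻¹ : Bˣ) : B) * g.val := by
      rw [InvSeries.mul_val, lin_inv_val]
      exact subst_C_mul_X g.hs _
    have hs : PowerSeries.HasSubst (PowerSeries.C (u : B) * PowerSeries.X : PowerSeries B) :=
      hasSubst_C_mul_X _
    rw [InvSeries.mul_val, h2, InvSeries.lin_val, PowerSeries.subst_mul hs, PowerSeries.subst_C,
      PowerSeries.rescale_eq_subst, PowerSeries.smul_eq_C_mul]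
    rfl
  rw [InvSeries.c, h1, PowerSeries.coeff_C_mul, PowerSeries.coeff_rescale, ← mul_assoc, pow_succ',
    ← mul_assoc, Units.inv_mul, one_mul]
  rfl

theorem tc_scA [hp : Fact p.Prime] {B : Type} [CommRing B] (u : Bˣ) (g : addS B) (i : ℕ) :
    tc p i ((scA u g : strict B) : InvSeries B) =
      (u : B) ^ (p ^ i - 1) * tc p i ((g : strict B) : InvSeries B) := by
  rw [tc_eq_c, val_scA, c_scale, tc_eq_c]

instance fpA_laurent {R : Type} [CommRing R] [h : FpA p R] : FpA p (R[T;T⁻¹]) := ⟨by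
  rw [← map_natCast (C : R →+* R[T;T⁻¹]), h.cast, map_zero]⟩

/-- the weight of a variable -/
def wX (p n : ℕ) (ki : Fin n × ℕ) : ℤ := (p : ℤ) ^ (ki.2 + 1) - 1

variable [hp : Fact p.Prime] {n : ℕ}

theorem unit_pow_eq {B : Type} [CommRing B] (u : Bˣ) (i : ℕ) :
    ((u ^ ((p : ℤ) ^ i - 1) : Bˣ) : B) = (u : B) ^ (p ^ i - 1) := by
  have h : ((p : ℤ) ^ i - 1) = ((p ^ i - 1 : ℕ) : ℤ) := by
    rw [Nat.cast_sub (Nat.one_le_pow _ _ hp.out.pos)]
    push_cast
    ring
  rw [h, zpow_natCast, Units.val_pow_eq_pow_val]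

/-- evaluation at a scaled chain -/
theorem evG_sc_X {B : Type} [CommRing B] [FpA p B] (u : Bˣ) (g : ℕ → addS B) (ki : Fin n × ℕ) :
    evG n (fun k => scA u (g k)) (MvPolynomial.X ki : CobP p n) =
      ((u ^ wX p n ki : Bˣ) : B) * evG n g (MvPolynomial.X ki : CobP p n) := by
  rw [evG_X, evG_X, ← map_inv, ← map_mul, tc_scA, wX, unit_pow_eq]

theorem zpow_weight {σ G : Type*} [CommGroup G] (u : G) (w : σ → ℤ) (e : σ →₀ ℕ) :
    u ^ Finsupp.weight w e = e.prod fun s k => (u ^ w s) ^ k := by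
  rw [Finsupp.weight_apply, Finsupp.sum, Finsupp.prod]
  induction e.support using Finset.cons_induction with
  | empty => simp
  | cons a s ha ih =>
    rw [Finset.sum_cons, Finset.prod_cons, zpow_add, ih, nsmul_eq_mul, mul_comm (e a : ℤ),
      zpow_mul, zpow_natCast]

theorem evG_sc_monomial {B : Type} [CommRing B] [FpA p B] (u : Bˣ) (g : ℕ → addS B)
    (e : (Fin n × ℕ) →₀ ℕ) (c : ZMod p) :
    evG n (fun k => scA u (g k)) (MvPolynomial.monomial e c : CobP p n) =
      ((u ^ Finsupp.weight (wX p n) e : Bˣ) : B) *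
        evG n g (MvPolynomial.monomial e c : CobP p n) := by
  have h2 : ((u ^ Finsupp.weight (wX p n) e : Bˣ) : B) =
      e.prod fun s k => ((u ^ wX p n s : Bˣ) : B) ^ k := by
    rw [zpow_weight, Finsupp.prod, Finsupp.prod, Units.coe_prod]
    rfl
  rw [MvPolynomial.monomial_eq, map_mul, map_mul, h2]
  have h3 : evG n (fun k => scA u (g k)) (MvPolynomial.C c : CobP p n) =
      evG n g (MvPolynomial.C c) := by
    rw [evG, MvPolynomial.coe_eval₂Hom, MvPolynomial.eval₂_C, evG, MvPolynomial.coe_eval₂Hom,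
      MvPolynomial.eval₂_C]
  rw [h3, mul_left_comm]
  congr 1
  rw [Finsupp.prod, map_prod, map_prod, Finsupp.prod, ← Finset.prod_mul_distrib]
  refine Finset.prod_congr rfl fun s _ => ?_
  rw [map_pow, map_pow, evG_sc_X, mul_pow]

/-- `z` is homogeneous of weight `w` (the variable `t_i` has weight `p^i - 1`) -/
def IsWtP (p n : ℕ) (w : ℤ) (z : CobP p n) : Prop :=
  MvPolynomial.IsWeightedHomogeneous (wX p n) z w

theorem IsWtP.evG_sc {w : ℤ} {z : CobP p n} (hz : IsWtP p n w z) {B : Type} [CommRing B]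
    [FpA p B] (u : Bˣ) (g : ℕ → addS B) :
    evG n (fun k => scA u (g k)) z = ((u ^ w : Bˣ) : B) * evG n g z := by
  conv_lhs => rw [MvPolynomial.as_sum z]
  conv_rhs => rw [MvPolynomial.as_sum z]
  rw [map_sum, map_sum, Finset.mul_sum]
  refine Finset.sum_congr rfl fun e he => ?_
  rw [evG_sc_monomial, hz (MvPolynomial.mem_support_iff.1 he)]

theorem IsWtP.ofP {w : ℤ} {z : CobP p n} (hz : IsWtP p n w z) : (ofP z).IsWt w :=
  fun u _ g => hz.evG_sc u g

/-- the value on the rescaled universal chain -/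
theorem coeff_evG_unitT (z : CobP p n) (v : ℤ) (e : (Fin n × ℕ) →₀ ℕ) :
    MvPolynomial.coeff e ((evG n (fun k => scA (unitT (CobP p n))
      (mapA (C : CobP p n →+* (CobP p n)[T;T⁻¹]) (gU p n k))) z).coeff v) =
      if Finsupp.weight (wX p n) e = v then MvPolynomial.coeff e z else 0 := by
  have h1 : evG n (fun k => scA (unitT (CobP p n))
      (mapA (C : CobP p n →+* (CobP p n)[T;T⁻¹]) (gU p n k))) z =
      ∑ e ∈ z.support, C (MvPolynomial.monomial e (MvPolynomial.coeff e z)) *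
        T (Finsupp.weight (wX p n) e) := by
    conv_lhs => rw [MvPolynomial.as_sum z]
    rw [map_sum]
    refine Finset.sum_congr rfl fun e _ => ?_
    rw [evG_sc_monomial, unitT_zpow, ← comp_evG, evG_gU, mul_comm]
    rfl
  rw [h1, AddMonoidAlgebra.coeff_sum, Finsupp.finsetSum_apply, MvPolynomial.coeff_sum]
  simp only [coeff_C_mul_T]
  by_cases he : e ∈ z.support
  · rw [Finset.sum_eq_single e]
    · split_ifs
      · rw [MvPolynomial.coeff_monomial, if_pos rfl]
      · rw [MvPolynomial.coeff_zero]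
    · intro e' _ hne
      split_ifs
      · rw [MvPolynomial.coeff_monomial, if_neg hne]
      · rw [MvPolynomial.coeff_zero]
    · intro h
      exact absurd he h
  · rw [Finset.sum_eq_zero, MvPolynomial.notMem_support_iff.1 he]
    · simp
    · intro e' he'
      split_ifs
      · rw [MvPolynomial.coeff_monomial, if_neg]
        rintro rfl
        exact he he'
      · rw [MvPolynomial.coeff_zero]

theorem isWt_ofP {w : ℤ} {z : CobP p n} : (ofP z).IsWt w ↔ IsWtP p n w z := by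
  refine ⟨fun h e he => ?_, IsWtP.ofP⟩
  have h1 := h (unitT (CobP p n)) ()
    (fun k => mapA (C : CobP p n →+* (CobP p n)[T;T⁻¹]) (gU p n k))
  change evG n (fun k => scA (unitT (CobP p n))
      (mapA (C : CobP p n →+* (CobP p n)[T;T⁻¹]) (gU p n k))) z =
    ((unitT (CobP p n) ^ w : ((CobP p n)[T;T⁻¹])ˣ) : (CobP p n)[T;T⁻¹]) *
      evG n (fun k => mapA (C : CobP p n →+* (CobP p n)[T;T⁻¹]) (gU p n k)) z at h1
  rw [← comp_evG, evG_gU, unitT_zpow, mul_comm] at h1
  change _ = C z * T w at h1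
  have h2 := coeff_evG_unitT z (Finsupp.weight (wX p n) e) e
  rw [h1, coeff_C_mul_T, if_pos rfl] at h2
  by_contra hne
  rw [if_neg (fun h => hne h.symm), MvPolynomial.coeff_zero] at h2
  exact he h2.symm

theorem isWt_toP {w : ℤ} {F : Coch (pt (addG p)) (triv (addG p)) n} :
    IsWtP p n w (toP F) ↔ F.IsWt w := by
  rw [← isWt_ofP, ofP_toP]

omit hp in
theorem isWtP_wt_zero : IsWtP p n 0 (1 : CobP p n) := MvPolynomial.isWeightedHomogeneous_one _ _

omit hp in
theorem isWtP_zero (w : ℤ) : IsWtP p n w (0 : CobP p n) :=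
  MvPolynomial.isWeightedHomogeneous_zero _ _ _

omit hp in
theorem IsWtP.add {w : ℤ} {x y : CobP p n} (hx : IsWtP p n w x) (hy : IsWtP p n w y) :
    IsWtP p n w (x + y) := MvPolynomial.IsWeightedHomogeneous.add hx hy

theorem IsWtP.neg {w : ℤ} {x : CobP p n} (hx : IsWtP p n w x) : IsWtP p n w (-x) := by
  rw [← isWt_ofP, ofP_neg]
  exact Coch.IsWt.neg (isWt_ofP.2 hx)

theorem IsWtP.sub {w : ℤ} {x y : CobP p n} (hx : IsWtP p n w x) (hy : IsWtP p n w y) :
    IsWtP p n w (x - y) := by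
  rw [sub_eq_add_neg]
  exact hx.add hy.neg

theorem IsWtP.zsmul {w : ℤ} {x : CobP p n} (hx : IsWtP p n w x) (k : ℤ) :
    IsWtP p n w (k • x) := by
  rw [← isWt_ofP, ofP_zsmul]
  exact Coch.IsWt.zsmul (isWt_ofP.2 hx) k

omit hp in
theorem IsWtP.mul {v w : ℤ} {x y : CobP p n} (hx : IsWtP p n v x) (hy : IsWtP p n w y) :
    IsWtP p n (v + w) (x * y) := MvPolynomial.IsWeightedHomogeneous.mul hx hy

omit hp in
theorem IsWtP.pow {w : ℤ} {x : CobP p n} (hx : IsWtP p n w x) (k : ℕ) :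
    IsWtP p n (k • w) (x ^ k) := MvPolynomial.IsWeightedHomogeneous.pow hx k

omit hp in
theorem isWtP_X (ki : Fin n × ℕ) : IsWtP p n (wX p n ki) (MvPolynomial.X ki) :=
  MvPolynomial.isWeightedHomogeneous_X _ _ _

theorem IsWtP.dP {w : ℤ} {x : CobP p n} (hx : IsWtP p n w x) : IsWtP p (n + 1) w (dP n x) := by
  rw [← isWt_ofP, ofP_dP]
  exact Coch.IsWt.d (isWt_ofP.2 hx)

theorem IsWtP.cupP {m : ℕ} {v w : ℤ} {x : CobP p n} {y : CobP p m} (hx : IsWtP p n v x)
    (hy : IsWtP p m w y) : IsWtP p (n + m) (v + w) (cupP x y) := by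
  rw [← isWt_ofP, ofP_cupP]
  exact Coch.IsWt.cup (isWt_ofP.2 hx) (isWt_ofP.2 hy)

theorem IsWtP.castP {m : ℕ} (h : n = m) {w : ℤ} {x : CobP p n} (hx : IsWtP p n w x) :
    IsWtP p m w (castP h x) := by
  subst h
  rw [← isWt_ofP, ofP_castP]
  exact isWt_ofP.2 hx

end Vale.Agent.P257.H93

end
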