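import Vale.Agent.P257.H93.Yon

/-! # P257 / H93 / Cup : cup products -/

noncomputable section

namespace Vale.Agent.P257.H93

open Vale.Agent.P251.F Vale.Agent.P251.F.F3 Vale.Agent.P217

/-! ### sequences -/

section seq

variable {W M : Type*} [AddCommGroup M]

/-- shift of a sequence -/
def sh (a : ℕ) (g : ℕ → W) : ℕ → W := fun k => g (a + k)

@[simp] theorem sh_apply (a : ℕ) (g : ℕ → W) (k : ℕ) : sh a g k = g (a + k) := rfl

@[simp] theorem sh_zero (g : ℕ → W) : sh 0 g = g := by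
  funext k
  simp

theorem sh_sh (a b : ℕ) (g : ℕ → W) : sh b (sh a g) = sh (a + b) g := by
  funext k
  simp [add_assoc]

theorem sh_del_le {a j : ℕ} (h : j ≤ a) (g : ℕ → W) : sh a (del j g) = sh (a + 1) g := by
  funext k
  simp only [sh, del]
  rw [if_neg (by omega)]
  congr 1
  omega

theorem sh_del_gt {a j : ℕ} (h : a < j) (g : ℕ → W) : sh a (del j g) = del (j - a) (sh a g) := by
  funext k
  simp only [sh, del]
  split_ifs <;> first | rfl | omega

/-- the Leibniz rule on the level of sequences; `m` is a biadditive product -/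
theorem dS_cup {R S : Type*} [AddCommGroup R] [AddCommGroup S] (m : R →+ S →+ M) (a b : ℕ)
    (X : (ℕ → W) → R) (Y : (ℕ → W) → S)
    (hX : ∀ G G' : ℕ → W, (∀ k ≤ a, G k = G' k) → X G = X G') (g : ℕ → W) :
    dS (a + b) (fun g => m (X g) (Y (sh a g))) g =
      m (dS a X g) (Y (sh (a + 1) g)) + ((-1 : ℤ) ^ a) • m (X g) (dS b Y (sh a g)) := by
  rw [dS_apply, dS_apply, dS_apply, show a + b + 2 = (a + 1) + (b + 1) by ring,
    Finset.sum_range_add, Finset.sum_range_succ _ (a + 1), map_add, AddMonoidHom.add_apply,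
    Finset.sum_range_succ' _ (b + 1), map_add, map_sum, map_sum,
    AddMonoidHom.finsetSum_apply]
  have h1 : ∀ j ∈ Finset.range (a + 1), ((-1 : ℤ) ^ j) • m (X (del j g)) (Y (sh a (del j g))) =
      m (((-1 : ℤ) ^ j) • X (del j g)) (Y (sh (a + 1) g)) := by
    intro j hj
    rw [Finset.mem_range] at hj
    rw [sh_del_le (by omega), map_zsmul, AddMonoidHom.smul_apply]
  have h2 : ∀ j ∈ Finset.range (b + 1), ((-1 : ℤ) ^ (a + 1 + j)) •
      m (X (del (a + 1 + j) g)) (Y (sh a (del (a + 1 + j) g))) =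
      ((-1 : ℤ) ^ a) • m (X g) (((-1 : ℤ) ^ (j + 1)) • Y (del (j + 1) (sh a g))) := by
    intro j _
    have h3 : X (del (a + 1 + j) g) = X g := hX _ _ fun k hk => by
      simp only [del]; rw [if_pos (by omega)]
    rw [h3, sh_del_gt (by omega), show a + 1 + j - a = j + 1 by omega, map_zsmul, smul_smul,
      ← pow_add]
    congr 2
    ring
  rw [Finset.sum_congr rfl h1, Finset.sum_congr rfl h2, ← Finset.smul_sum]
  have h4 : m (((-1 : ℤ) ^ (a + 1)) • X (del (a + 1) g)) (Y (sh (a + 1) g)) +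
      ((-1 : ℤ) ^ a) • m (X g) (((-1 : ℤ) ^ 0) • Y (del 0 (sh a g))) = 0 := by
    have h3 : X (del (a + 1) g) = X g := hX _ _ fun k hk => by
      simp only [del]; rw [if_pos (by omega)]
    have h5 : del 0 (sh a g) = sh (a + 1) g := by
      funext k
      simp only [del, sh]
      rw [if_neg (by omega)]
      congr 1
      omega
    rw [h3, h5, pow_zero, one_smul, map_zsmul, AddMonoidHom.smul_apply, pow_succ]
    simp
  rw [smul_add, eq_neg_of_add_eq_zero_right h4]
  abel

end seq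

variable {p : ℕ} {𝒢 : Grp p} {𝒳 : GSet 𝒢} {ℳ : Rep 𝒢} {a b c n m : ℕ}

namespace Coch

/-- change of the (irrelevant) degree index -/
def cast (h : n = m) (F : Coch 𝒳 ℳ n) : Coch 𝒳 ℳ m where
  f := F.f
  nat := F.nat
  loc x g g' h' := F.loc x g g' (by rwa [h])
  eqv := F.eqv

@[simp] theorem cast_f {B : Type} [CommRing B] [FpA p B] (h : n = m) (F : Coch 𝒳 ℳ n)
    (x : 𝒳.obj B) (g : ℕ → 𝒢.obj B) : (F.cast h).f x g = F.f x g := rfl

theorem d_cast (h : n = m) (F : Coch 𝒳 ℳ n) : (F.cast h).d = F.d.cast (by rw [h]) := by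
  subst h
  rfl

/-- cup product (front: scalar valued, back: `ℳ`-valued) -/
def cup (F : Coch 𝒳 (triv 𝒢) a) (E : Coch 𝒳 ℳ b) : Coch 𝒳 ℳ (a + b) where
  f {B} _ _ x g := (F.f x g : B) • E.f x (sh a g)
  nat φ x g := by
    rw [F.nat, ℳ.map_smulB, ← E.nat]
    rfl
  loc x g g' h := by
    rw [F.loc x g g' fun k hk => h k (by omega), E.loc x (sh a g) (sh a g') fun k hk =>
      h _ (by omega)]
  eqv h x g := by
    rw [F.eqv, smul_comm h, ← E.eqv]
    rfl

theorem cup_f {B : Type} [CommRing B] [FpA p B] (F : Coch 𝒳 (triv 𝒢) a) (E : Coch 𝒳 ℳ b)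
    (x : 𝒳.obj B) (g : ℕ → 𝒢.obj B) : (F.cup E).f x g = (F.f x g : B) • E.f x (sh a g) := rfl

theorem IsWt.cup {v w : ℤ} {F : Coch 𝒳 (triv 𝒢) a} {E : Coch 𝒳 ℳ b} (hF : F.IsWt v)
    (hE : E.IsWt w) : (F.cup E).IsWt (v + w) := fun u x g => by
  rw [cup_f, cup_f, map_smul]
  have h1 := hF u x g
  have h2 := hE u x (sh a g)
  change (F.f (𝒳.sc u x) fun k => 𝒢.sc u (g k)) = ((u ^ v : _ˣ) : _) * F.f x g at h1
  rw [h1]
  change _ • ℳ.sc u (E.f (𝒳.sc u x) (fun k => 𝒢.sc u (sh a g k))) = _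
  rw [h2, smul_smul, smul_smul, zpow_add, Units.val_mul]
  congr 1
  ring

theorem cup_add (F : Coch 𝒳 (triv 𝒢) a) (E E' : Coch 𝒳 ℳ b) :
    F.cup (E + E') = F.cup E + F.cup E' := ext' fun x g => by
  rw [cup_f, add_f, add_f, cup_f, cup_f, smul_add]

theorem add_cup (F F' : Coch 𝒳 (triv 𝒢) a) (E : Coch 𝒳 ℳ b) :
    (F + F').cup E = F.cup E + F'.cup E := ext' fun x g => by
  rw [cup_f, add_f, add_f, cup_f, cup_f, add_smul]

theorem cup_assoc (F : Coch 𝒳 (triv 𝒢) a) (E : Coch 𝒳 (triv 𝒢) b) (K : Coch 𝒳 ℳ c) :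
    (F.cup E).cup K = (F.cup (E.cup K)).cast (by rw [add_assoc]) := ext' fun x g => by
  rw [cup_f, cup_f, cast_f, cup_f, cup_f, sh_sh, smul_smul, smul_eq_mul]

/-- the Leibniz rule -/
theorem d_cup (F : Coch 𝒳 (triv 𝒢) a) (E : Coch 𝒳 ℳ b) : (F.cup E).d =
    (F.d.cup E).cast (by ring) + ((-1 : ℤ) ^ a) • (F.cup E.d).cast (by ring) :=
  ext' fun {B} _ _ x g => by
  let m : B →+ ℳ.obj B →+ ℳ.obj B := (Module.toAddMonoidEnd B (ℳ.obj B)).toAddMonoidHom
  rw [add_f, zsmul_f]
  exact dS_cup m a b (F.f x) (E.f x) (F.loc x) g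

end Coch

/-! ### polynomials -/

section poly

variable {B : Type} [CommRing B] [FpA p B]

/-- change of the degree -/
def castP (h : n = m) : CobP p n →+* CobP p m :=
  (MvPolynomial.rename fun ki : Fin n × ℕ => (Fin.cast h ki.1, ki.2)).toRingHom

@[simp] theorem evG_castP (h : n = m) (g : ℕ → addS B) (x : CobP p n) :
    evG m g (castP h x) = evG n g x := by
  have : (evG m g).comp (castP h) = evG (p := p) n g := by
    apply hom_ext_P
    intro ki
    simp [castP, evG_X]
  rw [← this]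
  rfl

/-- cup product of polynomials -/
def cupP (x : CobP p a) (y : CobP p b) : CobP p (a + b) :=
  MvPolynomial.rename (fun ki : Fin a × ℕ => (Fin.castAdd b ki.1, ki.2)) x *
    MvPolynomial.rename (fun ki : Fin b × ℕ => (Fin.natAdd a ki.1, ki.2)) y

theorem evG_cupP (x : CobP p a) (y : CobP p b) (g : ℕ → addS B) :
    evG (a + b) g (cupP x y) = evG a g x * evG b (sh a g) y := by
  have h1 : (evG (a + b) g).comp (MvPolynomial.rename
      (fun ki : Fin a × ℕ => (Fin.castAdd b ki.1, ki.2))).toRingHom = evG (p := p) a g := by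
    apply hom_ext_P
    intro ki
    simp [evG_X]
  have h2 : (evG (a + b) g).comp (MvPolynomial.rename
      (fun ki : Fin b × ℕ => (Fin.natAdd a ki.1, ki.2))).toRingHom = evG (p := p) b (sh a g) := by
    apply hom_ext_P
    intro ki
    simp [evG_X, add_assoc]
  rw [cupP, map_mul, ← h1, ← h2]
  rfl

theorem ofP_cupP (x : CobP p a) (y : CobP p b) : ofP (cupP x y) = (ofP x).cup (ofP y) :=
  Coch.ext' fun _ g => evG_cupP x y g

theorem ofP_castP (h : n = m) (x : CobP p n) : ofP (castP h x) = (ofP x).cast h :=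
  Coch.ext' fun _ g => evG_castP h g x

variable [hp : Fact p.Prime]

theorem ofP_injective : Function.Injective (ofP : CobP p n → _) := (yonP (p := p) n).injective

theorem ofP_add (x y : CobP p n) : ofP (x + y) = ofP x + ofP y := map_add (yonP n) x y
theorem ofP_sub (x y : CobP p n) : ofP (x - y) = ofP x - ofP y := map_sub (yonP n) x y
theorem ofP_neg (x : CobP p n) : ofP (-x) = -ofP x := map_neg (yonP n) x
theorem ofP_zero : ofP (0 : CobP p n) = 0 := map_zero (yonP n)
theorem ofP_zsmul (k : ℤ) (x : CobP p n) : ofP (k • x) = k • ofP x := map_zsmul (yonP n) k x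

omit hp in
theorem cupP_add (x : CobP p a) (y y' : CobP p b) : cupP x (y + y') = cupP x y + cupP x y' := by
  simp only [cupP, map_add, mul_add]

omit hp in
theorem add_cupP (x x' : CobP p a) (y : CobP p b) : cupP (x + x') y = cupP x y + cupP x' y := by
  simp only [cupP, map_add, add_mul]

omit hp in
@[simp] theorem cupP_zero (x : CobP p a) : cupP x (0 : CobP p b) = 0 := by simp [cupP]

omit hp in
@[simp] theorem zero_cupP (y : CobP p b) : cupP (0 : CobP p a) y = 0 := by simp [cupP]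

theorem cupP_assoc (x : CobP p a) (y : CobP p b) (z : CobP p c) :
    cupP (cupP x y) z = castP (add_assoc a b c).symm (cupP x (cupP y z)) := by
  apply ext_evG
  intro B _ _ g
  rw [evG_cupP, evG_cupP, evG_castP, evG_cupP, evG_cupP, sh_sh, mul_assoc]

theorem dP_castP (h : n = m) (x : CobP p n) : dP m (castP h x) = castP (by rw [h]) (dP n x) := by
  apply ofP_injective
  rw [ofP_dP, ofP_castP, ofP_castP, ofP_dP, Coch.d_cast]

/-- the Leibniz rule -/
theorem dP_cupP (x : CobP p a) (y : CobP p b) : dP (a + b) (cupP x y) =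
    castP (by ring) (cupP (dP a x) y) + ((-1 : ℤ) ^ a) • castP (by ring) (cupP x (dP b y)) := by
  apply ofP_injective
  rw [ofP_dP, ofP_cupP, Coch.d_cup, ofP_add, ofP_zsmul, ofP_castP, ofP_castP, ofP_cupP, ofP_cupP,
    ofP_dP, ofP_dP]

end poly

end Vale.Agent.P257.H93

end
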