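import Vale.Agent.P257.H134.W2
import Mathlib.Algebra.Polynomial.Derivative
import Mathlib.Algebra.Polynomial.Degree.Lemmas
import Mathlib.Algebra.Polynomial.Monic
import Mathlib.Algebra.Polynomial.BigOperators

/-! # P257 / H93 / Sig : the polynomials `τ = (y + z₀)^(p-1)` and
`σ = ((y + z₁)^p - (y + z₀)^p - (z₁ - z₀)^p) / p` -/

noncomputable section

namespace Vale.Agent.P257.H93

open Polynomial Vale.Agent.P257.H134 Finset

variable {p : ℕ} {B : Type} [CommRing B]

/-- `(y + z)^(p-1)` -/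
def pT (p : ℕ) (z : B) : B[X] := (X + C z) ^ (p - 1)

/-- `((y + z₁)^p - (y + z₀)^p - (z₁ - z₀)^p) / p` -/
def pS (p : ℕ) (z₀ z₁ : B) : B[X] := cp p (X + C z₀) (C (z₁ - z₀))

theorem cp_derivative [hp : Fact p.Prime] (f : B[X]) (c : B) :
    derivative (cp p f (C c)) = derivative f * ((f + C c) ^ (p - 1) - f ^ (p - 1)) := by
  have h1 : 1 ≤ p := hp.out.one_lt.le
  have h2 : (f + C c) ^ (p - 1) = f ^ (p - 1) +
      ∑ k ∈ Ioo 0 p, f ^ (k - 1) * C c ^ (p - k) * ((p - 1).choose (k - 1) : B[X]) := by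
    obtain ⟨q, rfl⟩ : ∃ q, p = q + 1 := ⟨p - 1, by omega⟩
    rw [Nat.add_sub_cancel, add_pow, sum_range_succ, Nat.sub_self, pow_zero, mul_one,
      Nat.choose_self, Nat.cast_one, mul_one, add_comm]
    congr 1
    refine sum_nbij' (fun k => k + 1) (fun k => k - 1) (fun k hk => ?_) (fun k hk => ?_)
      (fun k hk => ?_) (fun k hk => ?_) (fun k hk => ?_)
    · rw [mem_range] at hk
      rw [mem_Ioo]
      omega
    · rw [mem_Ioo] at hk
      rw [mem_range]
      omega
    · simp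
    · rw [mem_Ioo] at hk
      omega
    · rw [Nat.add_sub_cancel, Nat.add_sub_add_right]
  rw [h2, add_sub_cancel_left, cp, map_sum, mul_sum]
  refine sum_congr rfl fun k hk => ?_
  rw [mem_Ioo] at hk
  have h4 : ((p.choose k / p : ℕ) : B[X]) * (k : B[X]) = ((p - 1).choose (k - 1) : B[X]) := by
    rw [← Nat.cast_mul]
    congr 1
    obtain ⟨q, rfl⟩ : ∃ q, p = q + 1 := ⟨p - 1, by omega⟩
    obtain ⟨m, rfl⟩ : ∃ m, k = m + 1 := ⟨k - 1, by omega⟩
    rw [Nat.add_sub_cancel, Nat.add_sub_cancel]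
    have h5 := Nat.add_one_mul_choose_eq q m
    obtain ⟨r, hr⟩ : (q + 1) ∣ (q + 1).choose (m + 1) :=
      hp.out.dvd_choose_self (Nat.succ_ne_zero m) hk.2
    rw [hr] at h5 ⊢
    rw [Nat.mul_div_cancel_left _ (Nat.succ_pos q)]
    rw [mul_assoc] at h5
    exact (Nat.eq_of_mul_eq_mul_left (Nat.succ_pos q) h5).symm
  rw [← h4, derivative_mul, derivative_natCast, zero_mul, zero_add, derivative_mul,
    ← C_pow, derivative_C, mul_zero, add_zero, derivative_pow, C_eq_natCast]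
  ring

theorem derivative_pS [hp : Fact p.Prime] (z₀ z₁ : B) :
    derivative (pS p z₀ z₁) = pT p z₁ - pT p z₀ := by
  rw [pS, cp_derivative, derivative_add, derivative_X, derivative_C, add_zero, one_mul, pT, pT,
    add_assoc, ← C_add, add_sub_cancel]

theorem comp_pT (z₀ z : B) : (pT p z₀).comp (X - C z) = pT p (z₀ - z) := by
  rw [pT, pT, pow_comp, add_comp, X_comp, C_comp, C_sub]
  congr 1
  ring

theorem comp_pS (z₀ z₁ z : B) : (pS p z₀ z₁).comp (X - C z) = pS p (z₀ - z) (z₁ - z) := by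
  have h := map_cp p (compRingHom (X - C z)) (X + C z₀) (C (z₁ - z₀))
  rw [coe_compRingHom_apply, coe_compRingHom_apply, coe_compRingHom_apply, add_comp, X_comp,
    C_comp, C_comp] at h
  rw [pS, pS, h]
  congr 1
  · rw [C_sub]; ring
  · congr 1; ring

theorem scale_pT (l z : B) :
    (pT p (l * z)).comp (C l * X) = C (l ^ (p - 1)) * pT p z := by
  rw [pT, pT, pow_comp, add_comp, X_comp, C_comp, C_mul, ← mul_add, mul_pow, C_pow]

theorem scale_pS (l z₀ z₁ : B) :
    (pS p (l * z₀) (l * z₁)).comp (C l * X) = C (l ^ p) * pS p z₀ z₁ := by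
  have h := map_cp p (compRingHom (C l * X)) (X + C (l * z₀)) (C (l * z₁ - l * z₀))
  rw [coe_compRingHom_apply, coe_compRingHom_apply, coe_compRingHom_apply, add_comp, X_comp,
    C_comp, C_comp] at h
  rw [pS, pS, h, ← mul_sub, C_mul, ← mul_add, C_mul, cp_smul, C_pow]

theorem map_pT {B' : Type} [CommRing B'] (φ : B →+* B') (z : B) :
    (pT p z).map φ = pT p (φ z) := by
  rw [pT, pT, Polynomial.map_pow, Polynomial.map_add, map_X, map_C]

theorem map_pS {B' : Type} [CommRing B'] (φ : B →+* B') (z₀ z₁ : B) :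
    (pS p z₀ z₁).map φ = pS p (φ z₀) (φ z₁) := by
  have h := map_cp p (mapRingHom φ) (X + C z₀) (C (z₁ - z₀))
  rw [coe_mapRingHom, Polynomial.map_add, map_X, map_C, map_C] at h
  rw [pS, pS, h, map_sub]

/-- the coboundary of `σ` -/
theorem pS_coboundary [hp : Fact p.Prime] (z₀ z₁ z₂ : B) :
    pS p z₁ z₂ - pS p z₀ z₂ + pS p z₀ z₁ = C (cp p (z₁ - z₀) (z₂ - z₁)) := by
  have h := cp_assoc p (X + C z₀) (C (z₁ - z₀)) (C (z₂ - z₁))
  have h1 : X + C z₀ + C (z₁ - z₀) = X + C z₁ := by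
    rw [add_assoc, ← C_add, add_sub_cancel]
  have h2 : C (z₁ - z₀) + C (z₂ - z₁) = C (z₂ - z₀) := by
    rw [← C_add, sub_add_sub_cancel']
  rw [h1, h2] at h
  have h3 : (C (cp p (z₁ - z₀) (z₂ - z₁)) : B[X]) = cp p (C (z₁ - z₀)) (C (z₂ - z₁)) :=
    map_cp p (C : B →+* B[X]) _ _
  rw [h3, pS, pS, pS]
  linear_combination h

theorem cp_neg_neg [hp : Fact p.Prime] (h2 : p ≠ 2) (x y : B) : cp p (-x) (-y) = - cp p x y := by
  have h := cp_smul p (-1) x y
  rw [neg_one_mul, neg_one_mul, (hp.out.odd_of_ne_two h2).neg_one_pow, neg_one_mul] at h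
  exact h

theorem natDegree_pT (z : B) : (pT p z).natDegree ≤ p - 1 := by
  refine (natDegree_pow_le).trans ?_
  have : (X + C z).natDegree ≤ 1 := (natDegree_add_C).le.trans natDegree_X_le
  nlinarith [this]

theorem natDegree_pS (z₀ z₁ : B) : (pS p z₀ z₁).natDegree ≤ p - 1 := by
  rw [pS, cp]
  refine natDegree_sum_le_of_forall_le _ _ fun k hk => ?_
  rw [mem_Ioo] at hk
  have h1 : (X + C z₀).natDegree ≤ 1 := (natDegree_add_C).le.trans natDegree_X_le
  have h2 : ((X + C z₀) ^ k).natDegree ≤ k := (natDegree_pow_le).trans (by nlinarith [h1])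
  have h3 : ((C (z₁ - z₀) : B[X]) ^ (p - k)).natDegree ≤ 0 := by
    rw [← C_pow, natDegree_C]
  calc _ ≤ (((p.choose k / p : ℕ) : B[X])).natDegree +
        ((X + C z₀) ^ k * C (z₁ - z₀) ^ (p - k)).natDegree := natDegree_mul_le
    _ ≤ 0 + (((X + C z₀) ^ k).natDegree + (C (z₁ - z₀) ^ (p - k)).natDegree) := by
        rw [natDegree_natCast]
        gcongr
        exact natDegree_mul_le
    _ ≤ p - 1 := by omega

theorem coeff_pT (z : B) : (pT p z).coeff (p - 1) = 1 := by
  rcases subsingleton_or_nontrivial B with h | h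
  · exact Subsingleton.elim _ _
  have h1 : (pT p z).Monic := (monic_X_add_C z).pow _
  have h2 : (pT p z).natDegree = p - 1 := by
    rw [pT, (monic_X_add_C z).natDegree_pow, natDegree_X_add_C, mul_one]
  rw [← h2]
  exact h1

end Vale.Agent.P257.H93

end
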