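import Vale.Agent.P257.H93.Onto
import Vale.Agent.P257.H93.Sig
import Vale.Agent.P257.H93.Wt
import Vale.Agent.P257.H919.DG
import Vale.Agent.P257.H134.Cochains

/-! # P257 / H93 / OntoD : right multiplication by `b_{1,k}` is onto -/

noncomputable section

namespace Vale.Agent.P257.H93

open Vale.Agent.P251.F Vale.Agent.P251.F.F3 Vale.Agent.P217
open Vale.Agent.P257.H919 Vale.Agent.P257.H134 Polynomial Finset

variable {p : ℕ}

section vec

variable {B : Type} [CommRing B]

/-- the polynomial with given coefficients -/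
def PV (p : ℕ) (B : Type) [CommRing B] : (Fin p → B) →ₗ[B] B[X] where
  toFun v := ∑ a : Fin p, C (v a) * X ^ (a : ℕ)
  map_add' v w := by
    rw [← sum_add_distrib]
    refine sum_congr rfl fun a _ => ?_
    rw [Pi.add_apply, C_add, add_mul]
  map_smul' b v := by
    rw [RingHom.id_apply, smul_sum]
    refine sum_congr rfl fun a _ => ?_
    rw [Pi.smul_apply, smul_eq_mul, C_mul, smul_eq_C_mul, mul_assoc]

theorem PV_apply (v : Fin p → B) : PV p B v = ∑ a : Fin p, C (v a) * X ^ (a : ℕ) := rfl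

theorem coeff_PV (v : Fin p → B) (n : ℕ) :
    (PV p B v).coeff n = if h : n < p then v ⟨n, h⟩ else 0 := by
  rw [PV_apply, finsetSum_coeff]
  simp only [coeff_C_mul, coeff_X_pow]
  split_ifs with h
  · rw [sum_eq_single ⟨n, h⟩]
    · simp
    · intro b _ hb
      rw [if_neg, mul_zero]
      intro h'
      exact hb (Fin.ext h'.symm)
    · intro h'
      exact absurd (mem_univ _) h'
  · refine sum_eq_zero fun b _ => ?_
    rw [if_neg, mul_zero]
    intro h'
    exact h (h' ▸ b.2)

theorem coeff_PV_fin (v : Fin p → B) (a : Fin p) : (PV p B v).coeff a = v a := by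
  rw [coeff_PV, dif_pos a.2]

theorem PV_injective : Function.Injective (PV p B) := fun v w h => by
  funext a
  rw [← coeff_PV_fin v a, h, coeff_PV_fin]

/-- the coefficients of a polynomial -/
def cv (p : ℕ) (f : B[X]) : Fin p → B := fun a => f.coeff a

theorem PV_cv (hp : 0 < p) {f : B[X]} (hf : f.natDegree ≤ p - 1) : PV p B (cv p f) = f := by
  ext n
  rw [coeff_PV]
  split_ifs with h
  · rfl
  · rw [coeff_eq_zero_of_natDegree_lt]
    omega

theorem PV_mulVec [Fact p.Prime] (z : B) (v : Fin p → B) :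
    PV p B ((matD p z).mulVec v) = (PV p B v).comp (X - C z) := by
  rw [PV_apply v, Polynomial.sum_comp]
  simp only [mul_comp, C_comp, X_pow_comp]
  rw [PV_apply]
  have h : ∀ b : Fin p, C (v b) * (X - C z) ^ (b : ℕ) =
      ∑ a : Fin p, C (matD p z a b * v b) * X ^ (a : ℕ) := by
    intro b
    rw [← sum_matD, mul_sum]
    refine sum_congr rfl fun a _ => ?_
    rw [C_mul]
    ring
  rw [sum_congr rfl fun b _ => h b, sum_comm]
  refine sum_congr rfl fun a _ => ?_
  rw [← sum_mul, ← map_sum]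
  rfl

/-- constants -/
def dI (p : ℕ) (B : Type) [CommRing B] : B →ₗ[B] (Fin p → B) where
  toFun b a := if (a : ℕ) = 0 then b else 0
  map_add' b b' := by
    funext a
    rw [Pi.add_apply]
    split_ifs <;> simp
  map_smul' c b := by
    funext a
    rw [Pi.smul_apply]
    split_ifs <;> simp

theorem dI_apply (b : B) (a : Fin p) : dI p B b a = if (a : ℕ) = 0 then b else 0 := rfl

/-- the derivative -/
def dD (p : ℕ) (B : Type) [CommRing B] : (Fin p → B) →ₗ[B] (Fin p → B) where
  toFun v a := if h : (a : ℕ) + 1 < p then (((a : ℕ) + 1 : ℕ) : B) * v ⟨a + 1, h⟩ else 0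
  map_add' v w := by
    funext a
    rw [Pi.add_apply]
    split_ifs
    · rw [Pi.add_apply, mul_add]
    · rw [add_zero]
  map_smul' c v := by
    funext a
    rw [Pi.smul_apply]
    split_ifs
    · rw [Pi.smul_apply, smul_eq_mul, smul_eq_mul, RingHom.id_apply]
      ring
    · rw [smul_zero]

theorem dD_apply (v : Fin p → B) (a : Fin p) : dD p B v a =
    if h : (a : ℕ) + 1 < p then (((a : ℕ) + 1 : ℕ) : B) * v ⟨a + 1, h⟩ else 0 := rfl

theorem PV_dI (hp : 0 < p) (b : B) : PV p B (dI p B b) = C b := by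
  ext n
  rw [coeff_PV, coeff_C]
  split_ifs with h h1 h1
  · rw [dI_apply, if_pos h1]
  · rw [dI_apply, if_neg h1]
  · omega
  · rfl

theorem PV_dD (v : Fin p → B) : PV p B (dD p B v) = derivative (PV p B v) := by
  ext n
  rw [coeff_PV, coeff_derivative, coeff_PV]
  by_cases h : n + 1 < p
  · rw [dif_pos (by omega), dif_pos h, dD_apply, dif_pos h]
    push_cast
    ring
  · rw [dif_neg h, zero_mul]
    split_ifs with h1
    · rw [dD_apply, dif_neg h]
    · rfl

end vec

section rep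

variable [hp : Fact p.Prime]

/-- the last index -/
def lst (p : ℕ) [hp : Fact p.Prime] : Fin p := ⟨p - 1, Nat.sub_lt hp.out.pos Nat.one_pos⟩

theorem matD_lst {B : Type} [CommRing B] (z : B) (b : Fin p) :
    matD p z (lst p) b = if b = lst p then 1 else 0 := by
  rw [matD]
  split_ifs with h
  · subst h
    rcases subsingleton_or_nontrivial B with hB | hB
    · exact Subsingleton.elim _ _
    have h1 : ((X - C z : B[X]) ^ ((lst p : Fin p) : ℕ)).Monic := (monic_X_sub_C z).pow _
    have h2 : ((X - C z : B[X]) ^ ((lst p : Fin p) : ℕ)).natDegree = (lst p : Fin p) := by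
      rw [(monic_X_sub_C z).natDegree_pow, natDegree_X_sub_C, mul_one]
    have h3 := h1.coeff_natDegree
    rwa [h2] at h3
  · apply coeff_eq_zero_of_natDegree_lt
    refine lt_of_le_of_lt (natDegree_X_sub_C_pow_le z _) ?_
    have h1 := b.2
    have h2 : (b : ℕ) ≠ p - 1 := fun h' => h (Fin.ext h')
    change (b : ℕ) < p - 1
    omega

/-- the top coefficient -/
def dR (p : ℕ) [hp : Fact p.Prime] (B : Type) [CommRing B] : (Fin p → B) →ₗ[B] B where
  toFun v := v (lst p)
  map_add' _ _ := rfl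
  map_smul' _ _ := rfl

theorem dR_apply {B : Type} [CommRing B] (v : Fin p → B) : dR p B v = v (lst p) := rfl

theorem dR_mulVec {B : Type} [CommRing B] (z : B) (v : Fin p → B) :
    dR p B ((matD p z).mulVec v) = dR p B v := by
  rw [dR_apply, dR_apply, Matrix.mulVec, dotProduct]
  simp only [matD_lst, ite_mul, one_mul, zero_mul]
  rw [sum_ite_eq' univ (lst p), if_pos (mem_univ _)]

/-- the antiderivative -/
def dS' (p : ℕ) (B : Type) [CommRing B] : (Fin p → B) →ₗ[B] (Fin p → B) where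
  toFun v a := if h : 0 < (a : ℕ) then (invN p (a : ℕ) : B) * v ⟨a - 1, by omega⟩ else 0
  map_add' v w := by
    funext a
    rw [Pi.add_apply]
    split_ifs
    · rw [Pi.add_apply, mul_add]
    · rw [add_zero]
  map_smul' c v := by
    funext a
    rw [Pi.smul_apply]
    split_ifs
    · rw [Pi.smul_apply, smul_eq_mul, smul_eq_mul, RingHom.id_apply]
      ring
    · rw [smul_zero]

omit hp in
theorem dS'_apply {B : Type} [CommRing B] (v : Fin p → B) (a : Fin p) : dS' p B v a =
    if h : 0 < (a : ℕ) then (invN p (a : ℕ) : B) * v ⟨a - 1, by omega⟩ else 0 := rfl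

/-- `b ↦ b y^(p-1)` -/
def dE (p : ℕ) [hp : Fact p.Prime] (B : Type) [CommRing B] : B →ₗ[B] (Fin p → B) where
  toFun b a := if a = lst p then b else 0
  map_add' b b' := by
    funext a
    rw [Pi.add_apply]
    split_ifs <;> simp
  map_smul' c b := by
    funext a
    rw [Pi.smul_apply]
    split_ifs <;> simp

theorem dE_apply {B : Type} [CommRing B] (b : B) (a : Fin p) :
    dE p B b a = if a = lst p then b else 0 := rfl

/-- weight of `y = t_1^(p^k)` -/
def eD (p k : ℕ) : ℤ := (((p - 1) * p ^ k : ℕ) : ℤ)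

omit hp in
theorem eD_mul (k : ℕ) : eD p k * p = eD p (k + 1) := by
  rw [eD, eD, pow_succ]
  push_cast
  ring

theorem zpow_mul_nat {B : Type} [CommRing B] (u : Bˣ) (e : ℤ) (a : ℕ) :
    ((u ^ (e * (a : ℤ)) : Bˣ) : B) = ((u ^ e : Bˣ) : B) ^ a := by
  rw [zpow_mul, zpow_natCast, Units.val_pow_eq_pow_val]

/-- the four term sequence `0 → 1 → D → D → 1 → 0` -/
def fourD (k : ℕ) : Four (triv (addG p)) (DG p k).rep ((DG p k).rep.shift (eD p k))
    ((triv (addG p)).shift (eD p (k + 1))) where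
  i :=
    { h := fun {B} _ _ => dI p B
      nat := fun {B C} _ _ _ _ φ b => by
        funext a
        change (if (a : ℕ) = 0 then φ b else 0) = φ (if (a : ℕ) = 0 then b else 0)
        split_ifs <;> simp
      scal := fun {B} _ _ u b => by
        funext a
        change (if (a : ℕ) = 0 then b else 0) =
          ((u ^ (eD p k * ((a : ℕ) : ℤ)) : Bˣ) : B) * (if (a : ℕ) = 0 then b else 0)
        split_ifs with h
        · rw [h]; simp
        · rw [mul_zero]
      eqv := fun {B} _ _ g b => by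
        change dI p B b = (matD p ((crdAdd p).t g 1 ^ p ^ k)).mulVec (dI p B b)
        apply PV_injective
        rw [PV_mulVec, PV_dI hp.out.pos, C_comp] }
  δ :=
    { h := fun {B} _ _ => dD p B
      nat := fun {B C} _ _ _ _ φ v => by
        funext a
        change (if h : (a : ℕ) + 1 < p then (((a : ℕ) + 1 : ℕ) : C) * φ (v ⟨a + 1, h⟩) else 0) =
          φ (if h : (a : ℕ) + 1 < p then (((a : ℕ) + 1 : ℕ) : B) * v ⟨a + 1, h⟩ else 0)
        split_ifs
        · rw [map_mul, map_natCast]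
        · rw [map_zero]
      scal := fun {B} _ _ u v => by
        funext a
        change (if h : (a : ℕ) + 1 < p then (((a : ℕ) + 1 : ℕ) : B) *
          (((u ^ (eD p k * (((a : ℕ) + 1 : ℕ) : ℤ)) : Bˣ) : B) * v ⟨a + 1, h⟩) else 0) =
          ((u ^ eD p k : Bˣ) : B) * (((u ^ (eD p k * ((a : ℕ) : ℤ)) : Bˣ) : B) *
          (if h : (a : ℕ) + 1 < p then (((a : ℕ) + 1 : ℕ) : B) * v ⟨a + 1, h⟩ else 0))
        rw [zpow_mul_nat, zpow_mul_nat]
        split_ifs
        · ring
        · rw [mul_zero, mul_zero]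
      eqv := fun {B} _ _ g v => by
        change dD p B ((matD p ((crdAdd p).t g 1 ^ p ^ k)).mulVec v) =
          (matD p ((crdAdd p).t g 1 ^ p ^ k)).mulVec (dD p B v)
        apply PV_injective
        rw [PV_dD, PV_mulVec, PV_mulVec, PV_dD, derivative_comp, derivative_sub, derivative_X,
          derivative_C, sub_zero, one_mul] }
  r :=
    { h := fun {B} _ _ => dR p B
      nat := fun {B C} _ _ _ _ φ v => rfl
      scal := fun {B} _ _ u v => by
        change ((u ^ eD p k : Bˣ) : B) * (((u ^ (eD p k * (((lst p : Fin p) : ℕ) : ℤ)) : Bˣ) : B) *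
          v (lst p)) = ((u ^ eD p (k + 1) : Bˣ) : B) * v (lst p)
        have h : (p - 1) + 1 = p := Nat.sub_add_cancel hp.out.pos
        rw [← eD_mul, zpow_mul_nat, zpow_mul_nat, ← mul_assoc, ← pow_succ']
        congr 2
      eqv := fun {B} _ _ g v => dR_mulVec _ v }
  sδ :=
    { h := fun {B} _ _ => dS' p B
      nat := fun {B C} _ _ _ _ φ v => by
        funext a
        change (if h : 0 < (a : ℕ) then (invN p (a : ℕ) : C) * φ (v ⟨a - 1, by omega⟩) else 0) =
          φ (if h : 0 < (a : ℕ) then (invN p (a : ℕ) : B) * v ⟨a - 1, by omega⟩ else 0)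
        split_ifs
        · rw [map_mul, map_natCast]
        · rw [map_zero]
      scal := fun {B} _ _ u v => by
        funext a
        change (if h : 0 < (a : ℕ) then (invN p (a : ℕ) : B) * (((u ^ eD p k : Bˣ) : B) *
          (((u ^ (eD p k * (((a : ℕ) - 1 : ℕ) : ℤ)) : Bˣ) : B) * v ⟨a - 1, by omega⟩)) else 0) =
          ((u ^ (eD p k * ((a : ℕ) : ℤ)) : Bˣ) : B) *
          (if h : 0 < (a : ℕ) then (invN p (a : ℕ) : B) * v ⟨a - 1, by omega⟩ else 0)
        rw [zpow_mul_nat, zpow_mul_nat]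
        split_ifs with h
        · obtain ⟨m, hm⟩ : ∃ m, (a : ℕ) = m + 1 := ⟨a - 1, by omega⟩
          simp only [hm, Nat.add_sub_cancel]
          ring
        · rw [mul_zero] }
  sr :=
    { h := fun {B} _ _ => dE p B
      nat := fun {B C} _ _ _ _ φ b => by
        funext a
        change (if a = lst p then φ b else 0) = φ (if a = lst p then b else 0)
        split_ifs <;> simp
      scal := fun {B} _ _ u b => by
        funext a
        change (if a = lst p then ((u ^ eD p (k + 1) : Bˣ) : B) * b else 0) =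
          ((u ^ eD p k : Bˣ) : B) * (((u ^ (eD p k * ((a : ℕ) : ℤ)) : Bˣ) : B) *
          (if a = lst p then b else 0))
        have h : (p - 1) + 1 = p := Nat.sub_add_cancel hp.out.pos
        split_ifs with h1
        · subst h1
          rw [← eD_mul, zpow_mul_nat, zpow_mul_nat, ← mul_assoc, ← pow_succ']
          congr 2
          exact h.symm
        · rw [mul_zero, mul_zero] }
  i_inj {B} _ _ b b' h := by
    have := congrFun h ⟨0, hp.out.pos⟩
    exact this
  δ_i {B} _ _ b := by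
    apply PV_injective
    change PV p B (dD p B (dI p B b)) = PV p B 0
    rw [PV_dD, PV_dI hp.out.pos, derivative_C, map_zero]
  exact {B} _ _ v hv := by
    refine ⟨v ⟨0, hp.out.pos⟩, ?_⟩
    funext a
    change (if (a : ℕ) = 0 then v ⟨0, hp.out.pos⟩ else 0) = v a
    split_ifs with h
    · congr 1
      exact Fin.ext h.symm
    · obtain ⟨m, hm⟩ : ∃ m, (a : ℕ) = m + 1 := ⟨a - 1, by omega⟩
      have h1 := congrFun hv ⟨m, by omega⟩
      change (if h : m + 1 < p then ((m + 1 : ℕ) : B) * v ⟨m + 1, h⟩ else 0) = 0 at h1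
      rw [dif_pos (by omega)] at h1
      have h2 := mul_invN (p := p) (B := B) (n := m + 1) (fun h' => by
        have := Nat.le_of_dvd (Nat.succ_pos m) h'
        omega)
      have h3 : v ⟨m + 1, by omega⟩ = (invN p (m + 1) : B) * (((m + 1 : ℕ) : B) *
          v ⟨m + 1, by omega⟩) := by
        rw [← mul_assoc, mul_comm (invN p (m + 1) : B), h2, one_mul]
      rw [h1, mul_zero] at h3
      rw [← h3]
      congr 1
      exact Fin.ext hm.symm
  δ_sδ {B} _ _ v hv := by
    funext a
    change (if h : (a : ℕ) + 1 < p then (((a : ℕ) + 1 : ℕ) : B) *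
      (dS' p B v ⟨a + 1, h⟩) else 0) = v a
    split_ifs with h
    · rw [dS'_apply, dif_pos (Nat.succ_pos _), ← mul_assoc, mul_invN (p := p) (fun h' => by
        have := Nat.le_of_dvd (Nat.succ_pos _) h'
        omega), one_mul]
      rfl
    · have h1 : a = lst p := Fin.ext (by
        change (a : ℕ) = p - 1
        omega)
      rw [h1]
      exact hv.symm
  r_δ {B} _ _ v := by
    change dD p B v (lst p) = 0
    rw [dD_apply, dif_neg]
    change ¬ (p - 1 + 1 < p)
    omega
  r_sr {B} _ _ b := by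
    change dE p B b (lst p) = b
    rw [dE_apply, if_pos rfl]

/-- the coordinate `t_1^(p^k)` of the `i`-th vertex -/
def zc (p k : ℕ) {B : Type} [CommRing B] (g : addS B) : B := tc p 1 ((g : strict B) : InvSeries B) ^ p ^ k

theorem zc_mul {B : Type} [CommRing B] [FpA p B] (k : ℕ) (g h : addS B) :
    zc p k (g * h) = zc p k g + zc p k h := by
  have h1 := (crdAdd p).t1_mul g h
  change tc p 1 (((g * h : addS B) : strict B) : InvSeries B) = _ at h1
  rw [zc, h1, add_pow_pp]
  rfl

theorem zc_one {B : Type} [CommRing B] [FpA p B] (k : ℕ) : zc p k (1 : addS B) = 0 := by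
  have h := zc_mul (p := p) k (1 : addS B) 1
  rw [mul_one] at h
  exact left_eq_add.1 h

theorem zc_inv {B : Type} [CommRing B] [FpA p B] (k : ℕ) (g : addS B) :
    zc p k g⁻¹ = - zc p k g := by
  have h := zc_mul (p := p) k g g⁻¹
  rw [mul_inv_cancel, zc_one] at h
  exact (neg_eq_of_add_eq_zero_right h.symm).symm

omit hp in
theorem zc_map {B C : Type} [CommRing B] [CommRing C] (k : ℕ) (φ : B →+* C) (g : addS B) :
    zc p k (mapA φ g) = φ (zc p k g) := by
  rw [zc, zc, val_mapA, map_tc, map_pow]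

theorem zc_sc {B : Type} [CommRing B] [FpA p B] (k : ℕ) (u : Bˣ) (g : addS B) :
    zc p k (scA u g) = ((u ^ eD p k : Bˣ) : B) * zc p k g := by
  rw [zc, zc, tc_scA, mul_pow, eD, zpow_natCast, Units.val_pow_eq_pow_val, ← pow_mul, pow_one]

theorem cv_mulVec {B : Type} [CommRing B] (z : B) {f : B[X]} (hf : f.natDegree ≤ p - 1)
    (hf' : (f.comp (X - C z)).natDegree ≤ p - 1) :
    (matD p z).mulVec (cv p f) = cv p (f.comp (X - C z)) := by
  apply PV_injective
  rw [PV_mulVec, PV_cv hp.out.pos hf, PV_cv hp.out.pos hf']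

omit hp in
theorem cv_map {B C : Type} [CommRing B] [CommRing C] (φ : B →+* C) (f : B[X]) :
    cv p (f.map φ) = fun a => φ (cv p f a) := by
  funext a
  rw [cv, coeff_map]
  rfl

omit hp in
theorem cv_scale {B : Type} [CommRing B] (l : B) (f : B[X]) (a : Fin p) :
    cv p (f.comp (C l * X)) a = l ^ (a : ℕ) * cv p f a := by
  rw [cv, comp_C_mul_X_coeff, mul_comm]
  rfl

theorem cv_derivative {B : Type} [CommRing B] {f : B[X]} (hf : f.natDegree ≤ p - 1) :
    dD p B (cv p f) = cv p (derivative f) := by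
  apply PV_injective
  rw [PV_dD, PV_cv hp.out.pos hf, PV_cv hp.out.pos ((natDegree_derivative_le f).trans (by omega))]

/-- the cochain `τ` -/
def tauD (p k : ℕ) [Fact p.Prime] :
    Coch (pt (addG p)) ((DG p k).rep.shift (eD p k)) 0 where
  f {B} _ _ _ g := cv p (pT p (zc p k (g 0)))
  nat {B C} _ _ _ _ φ _ g := by
    change cv p (pT p (zc p k (mapA φ (g 0)))) = fun a => φ (cv p (pT p (zc p k (g 0))) a)
    rw [zc_map, ← map_pT, cv_map]
  loc {B} _ _ _ g g' h := by rw [h 0 le_rfl]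
  eqv {B} _ _ h _ g := by
    change cv p (pT p (zc p k (g 0 * h⁻¹))) = (matD p (zc p k h)).mulVec (cv p (pT p (zc p k (g 0))))
    rw [cv_mulVec _ (natDegree_pT _) (by rw [comp_pT]; exact natDegree_pT _), comp_pT, zc_mul,
      zc_inv, sub_eq_add_neg]

/-- the cochain `σ` -/
def sigD (p k : ℕ) [Fact p.Prime] : Coch (pt (addG p)) (DG p k).rep 1 where
  f {B} _ _ _ g := cv p (pS p (zc p k (g 0)) (zc p k (g 1)))
  nat {B C} _ _ _ _ φ _ g := by
    change cv p (pS p (zc p k (mapA φ (g 0))) (zc p k (mapA φ (g 1)))) =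
      fun a => φ (cv p (pS p (zc p k (g 0)) (zc p k (g 1))) a)
    rw [zc_map, zc_map, ← map_pS, cv_map]
  loc {B} _ _ _ g g' h := by rw [h 0 (Nat.zero_le _), h 1 le_rfl]
  eqv {B} _ _ h _ g := by
    change cv p (pS p (zc p k (g 0 * h⁻¹)) (zc p k (g 1 * h⁻¹))) =
      (matD p (zc p k h)).mulVec (cv p (pS p (zc p k (g 0)) (zc p k (g 1))))
    rw [cv_mulVec _ (natDegree_pS _ _) (by rw [comp_pS]; exact natDegree_pS _ _), comp_pS, zc_mul,
      zc_mul, zc_inv, ← sub_eq_add_neg, ← sub_eq_add_neg]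

theorem tauD_d (k : ℕ) : (tauD p k).d = (sigD p k).push (fourD k).δ :=
  Coch.ext' fun {B} _ _ x g => by
  change dS 0 (fun g => cv p (pT p (zc p k (g 0)))) g =
    dD p B (cv p (pS p (zc p k (g 0)) (zc p k (g 1))))
  rw [dS_apply, sum_range_succ, sum_range_one, cv_derivative (natDegree_pS _ _), derivative_pS]
  have e0 : del 0 g 0 = g 1 := by simp [del]
  have e1 : del 1 g 0 = g 0 := by simp [del]
  rw [e0, e1, pow_zero, one_smul, pow_one, neg_one_smul, ← sub_eq_add_neg]
  funext a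
  rw [Pi.sub_apply, cv, cv, cv, coeff_sub]

theorem cp_zc {B : Type} [CommRing B] [FpA p B] (hp2 : p ≠ 2) (k : ℕ) (g : ℕ → addS B) :
    cp p (zc p k (g 1) - zc p k (g 0)) (zc p k (g 2) - zc p k (g 1)) =
      - evG 2 g (bP p 1 k) := by
  have h1 : zc p k (g 1) - zc p k (g 0) = - zc p k (g 0 * (g 1)⁻¹) := by
    rw [zc_mul, zc_inv]; ring
  have h2 : zc p k (g 2) - zc p k (g 1) = - zc p k (g 1 * (g 2)⁻¹) := by
    rw [zc_mul, zc_inv]; ring
  rw [h1, h2, cp_neg_neg hp2, evG_bP, bb,
    show (antidiagonal 1 : Finset (ℕ × ℕ)) = {(0, 1), (1, 0)} from rfl,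
    gam_pair p (by simp)]
  simp only [co_zero, one_pow, one_mul, mul_one, zero_add]
  rw [cp_comm]
  rfl

theorem sigD_d (hp2 : p ≠ 2) (k : ℕ) :
    (sigD p k).d = (ofP (-(bP p 1 k))).push (fourD k).i :=
  Coch.ext' fun {B} _ _ x g => by
  change dS 1 (fun g => cv p (pS p (zc p k (g 0)) (zc p k (g 1)))) g =
    dI p B (evG 2 g (-(bP p 1 k)))
  rw [dS_apply, sum_range_succ, sum_range_succ, sum_range_one, map_neg (evG 2 g), ← cp_zc hp2]
  have e00 : del 0 g 0 = g 1 := by simp [del]
  have e01 : del 0 g 1 = g 2 := by simp [del]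
  have e10 : del 1 g 0 = g 0 := by simp [del]
  have e11 : del 1 g 1 = g 2 := by simp [del]
  have e20 : del 2 g 0 = g 0 := by simp [del]
  have e21 : del 2 g 1 = g 1 := by simp [del]
  rw [e00, e01, e10, e11, show (1 + 1 : ℕ) = 2 from rfl, e20, e21, pow_zero, one_smul, pow_one,
    neg_one_smul, show ((-1 : ℤ) ^ 2) = 1 by norm_num, one_smul]
  apply PV_injective
  rw [PV_dI hp.out.pos, ← pS_coboundary, map_add, map_add, map_neg,
    PV_cv hp.out.pos (natDegree_pS _ _), PV_cv hp.out.pos (natDegree_pS _ _),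
    PV_cv hp.out.pos (natDegree_pS _ _), sub_eq_add_neg]

theorem isWt_tauD (k : ℕ) : (tauD p k).IsWt (eD p (k + 1)) := fun {B} _ _ u x g => by
  funext a
  change ((u ^ eD p k : Bˣ) : B) * (((u ^ (eD p k * ((a : ℕ) : ℤ)) : Bˣ) : B) *
    cv p (pT p (zc p k (scA u (g 0)))) a) =
    ((u ^ eD p (k + 1) : Bˣ) : B) * cv p (pT p (zc p k (g 0))) a
  have h : ((u ^ eD p k : Bˣ) : B) ^ p =
      ((u ^ eD p k : Bˣ) : B) * ((u ^ eD p k : Bˣ) : B) ^ (p - 1) := by
    rw [← pow_succ', Nat.sub_add_cancel hp.out.pos]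
  rw [zpow_mul_nat, ← cv_scale, zc_sc, scale_pT, ← eD_mul, zpow_mul_nat, h, cv, coeff_C_mul,
    mul_assoc]
  rfl

theorem isWt_sigD (k : ℕ) : (sigD p k).IsWt (eD p (k + 1)) := fun {B} _ _ u x g => by
  funext a
  change (((u ^ (eD p k * ((a : ℕ) : ℤ)) : Bˣ) : B) *
    cv p (pS p (zc p k (scA u (g 0))) (zc p k (scA u (g 1)))) a) =
    ((u ^ eD p (k + 1) : Bˣ) : B) * cv p (pS p (zc p k (g 0)) (zc p k (g 1))) a
  rw [zpow_mul_nat, ← cv_scale, zc_sc, zc_sc, scale_pS, ← eD_mul, zpow_mul_nat, cv, coeff_C_mul]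
  rfl

/-- **Right multiplication by `b_{1,k}` is onto.** -/
theorem onto_bP (hp2 : p ≠ 2) {k n : ℕ} {w : ℤ} (h1 : Van (pt (addG p)) (DG p k).rep (n + 2) w)
    (h2 : Van (pt (addG p)) (DG p k).rep (n + 1) (w - eD p k)) {z : CobP p (n + 2)}
    (hz : IsWtP p (n + 2) w z) (hd : dP (n + 2) z = 0) :
    ∃ (c₀ : CobP p n) (e : CobP p (n + 1)), IsWtP p n (w - eD p (k + 1)) c₀ ∧
      IsWtP p (n + 1) w e ∧ dP n c₀ = 0 ∧ z = cupP c₀ (bP p 1 k) + dP (n + 1) e := by
  have hw : w - eD p (k + 1) + eD p (k + 1) = w := sub_add_cancel _ _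
  obtain ⟨F, E, hF, hE, hdF, hc⟩ := onto (𝒳 := pt (addG p)) (s := n) (w := w - eD p (k + 1))
    (fourD k) (tauD p k) (sigD p k) (ofP (-(bP p 1 k)))
    (fun {B} _ _ x g => coeff_pT (zc p k (g 0))) (tauD_d k) (sigD_d hp2 k) (isWt_tauD k)
    (isWt_sigD k) (by rwa [hw]) (van_shift.2 (by rwa [hw])) (c := ofP z)
    (by rw [hw]; exact isWt_ofP.2 hz) (by rw [← ofP_dP, hd, ofP_zero])
  rw [hw] at hE
  refine ⟨-toP F, toP E, (isWt_toP.2 hF).neg, isWt_toP.2 hE, ?_, ?_⟩
  · rw [map_neg, neg_eq_zero]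
    apply ofP_injective
    rw [ofP_dP, ofP_toP, hdF, ofP_zero]
  · apply ofP_injective
    rw [hc, ofP_add, ofP_dP, ofP_toP]
    congr 1
    rw [ofP_cupP, ofP_neg, ofP_neg, ofP_toP]
    exact Coch.ext' fun x g => by
      rw [Coch.cup_f, Coch.cup_f, Coch.neg_f, Coch.neg_f]
      change _ * _ = _ * _
      ring

end rep

end Vale.Agent.P257.H93

end
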