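import Vale.Agent.P257.H93.LES
import Vale.Agent.P257.H604.Log
import Vale.Agent.P251.F.F3Homot
import Vale.Agent.P251.F.LazWt

/-! # P257 / H93 / Add : strict series and additive strict series as group functors -/

noncomputable section

namespace Vale.Agent.P257.H93

open Vale.Agent.P251.F Vale.Agent.P251.F.F3 Vale.Agent.P217

variable {p : ℕ}

/-! ### coefficients of compositions of additive series -/

section coeff

variable {B : Type} [CommRing B]

/-- the coefficient of `x^(p^i)` -/
def tc (p : ℕ) (i : ℕ) (g : InvSeries B) : B := PowerSeries.coeff (p ^ i) g.val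

theorem tc_eq_c [hp : Fact p.Prime] (i : ℕ) (g : InvSeries B) : tc p i g = g.c (p ^ i - 1) := by
  rw [tc, InvSeries.c, Nat.sub_add_cancel (Nat.one_le_pow _ _ hp.out.pos)]

theorem tc_zero {g : InvSeries B} (hg : g ∈ strict B) : tc p 0 g = 1 := by
  rw [tc, pow_zero]
  exact hg

theorem tc_one_zero : tc p 0 (1 : InvSeries B) = 1 := tc_zero (one_mem _)

theorem tc_one_succ [hp : Fact p.Prime] (i : ℕ) : tc p (i + 1) (1 : InvSeries B) = 0 := by
  rw [tc, InvSeries.one_val, PowerSeries.coeff_X, if_neg]
  exact (Nat.one_lt_pow (Nat.succ_ne_zero i) hp.out.one_lt).ne'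

/-- the series has only terms `x^(p^i)` -/
def IsAdd (p : ℕ) (g : InvSeries B) : Prop := ∀ n, (¬ ∃ k, n + 1 = p ^ k) → g.c n = 0

theorem IsAdd.coeff {g : InvSeries B} (hg : IsAdd p g) {n : ℕ} (h : ¬ ∃ k, n = p ^ k) :
    PowerSeries.coeff n g.val = 0 := by
  rcases n with _ | n
  · rw [PowerSeries.coeff_zero_eq_constantCoeff_apply, g.cc]
  · exact hg n h

theorem isAdd_iff [Fact p.Prime] [hB : FpA p B] {g : InvSeries B} (hg : g ∈ strict B) :
    IsAdd p g ↔ g • addLaw B = addLaw B := (Vale.Agent.P257.H604.smul_addLaw_iff hB.cast hg).symm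

/-- an additive series modulo terms of degree `> p^i` -/
theorem IsAdd.sub_mem [hp : Fact p.Prime] {g : InvSeries B} (hg : IsAdd p g) (i : ℕ) :
    g.val - ∑ j ∈ Finset.range (i + 1), PowerSeries.C (tc p j g) * PowerSeries.X ^ (p ^ j) ∈
      ordI Unit B (p ^ i + 1) := by
  rw [mem_ordI_unit]
  intro d hd'
  rw [map_sub, map_sum, sub_eq_zero]
  simp only [PowerSeries.coeff_C_mul, PowerSeries.coeff_X_pow]
  by_cases h : ∃ k, d = p ^ k
  · obtain ⟨k, hk⟩ := h
    have hki : k < i + 1 := by
      rw [hk] at hd'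
      have := (Nat.pow_le_pow_iff_right hp.out.one_lt).1 (Nat.lt_succ_iff.1 hd')
      omega
    rw [Finset.sum_eq_single k]
    · rw [hk, if_pos rfl, mul_one, tc]
    · intro j _ hj
      rw [hk, if_neg, mul_zero]
      intro h
      exact hj (Nat.pow_right_injective hp.out.two_le h).symm
    · intro h
      exact absurd (Finset.mem_range.2 hki) h
  · rw [hg.coeff h, Finset.sum_eq_zero]
    intro j _
    rw [if_neg (fun h' => h ⟨j, h'⟩), mul_zero]

theorem coeff_pow_pow [hp : Fact p.Prime] (hB : (p : B) = 0) (g : PowerSeries B) (i j : ℕ) :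
    PowerSeries.coeff (p ^ i) (g ^ (p ^ j)) =
      if j ≤ i then PowerSeries.coeff (p ^ (i - j)) g ^ (p ^ j) else 0 := by
  rcases subsingleton_or_nontrivial B with h | h
  · exact Subsingleton.elim _ _
  have : CharP B p := (CharP.charP_iff_prime_eq_zero hp.out).2 hB
  have : ExpChar B p := expChar_prime B p
  rw [pow_eq_expand_map, PowerSeries.coeff_expand]
  by_cases hj : j ≤ i
  · rw [if_pos hj, if_pos (pow_dvd_pow p hj), Nat.pow_div hj hp.out.pos, PowerSeries.coeff_map,
      iterateFrobenius_def]
  · rw [if_neg hj, if_neg]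
    intro h'
    exact hj ((Nat.pow_dvd_pow_iff_le_right hp.out.one_lt).1 h')

/-- the coefficients of the composition of additive series -/
theorem tc_mul [hp : Fact p.Prime] [hB : FpA p B] {f : InvSeries B} (hf : IsAdd p f)
    (g : InvSeries B) (i : ℕ) :
    tc p i (f * g) = ∑ j ∈ Finset.range (i + 1), tc p j f * tc p (i - j) g ^ (p ^ j) := by
  have hs := g.hs
  have h1 : PowerSeries.subst g.val (f.val - ∑ j ∈ Finset.range (i + 1),
      PowerSeries.C (tc p j f) * PowerSeries.X ^ (p ^ j) : PowerSeries B) ∈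
      ordI Unit B (p ^ i + 1) :=
    subst_mem_ordI (a := fun _ : Unit => g.val) (fun _ => g.val_mem) (hf.sub_mem i)
  have h2 : PowerSeries.subst g.val (f.val - ∑ j ∈ Finset.range (i + 1),
      PowerSeries.C (tc p j f) * PowerSeries.X ^ (p ^ j) : PowerSeries B) = (f * g).val -
      ∑ j ∈ Finset.range (i + 1), PowerSeries.C (tc p j f) * g.val ^ (p ^ j) := by
    rw [← PowerSeries.coe_substAlgHom hs, map_sub, map_sum, PowerSeries.coe_substAlgHom hs]
    congr 1
    refine Finset.sum_congr rfl fun j _ => ?_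
    rw [← PowerSeries.coe_substAlgHom hs, map_mul, map_pow, PowerSeries.coe_substAlgHom hs,
      PowerSeries.subst_X hs, PowerSeries.subst_C]
    rfl
  rw [h2] at h1
  have h3 := (mem_ordI_unit.1 h1) (p ^ i) (by omega)
  rw [map_sub, map_sum, sub_eq_zero] at h3
  rw [tc, h3]
  refine Finset.sum_congr rfl fun j hj => ?_
  rw [PowerSeries.coeff_C_mul, coeff_pow_pow hB.cast,
    if_pos (Nat.lt_succ_iff.1 (Finset.mem_range.1 hj))]
  rfl

theorem IsAdd.ext {f g : InvSeries B} (hf : IsAdd p f) (hg : IsAdd p g)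
    (h : ∀ i, tc p i f = tc p i g) : f = g := by
  apply InvSeries.ext_c
  intro n
  by_cases hn : ∃ k, n + 1 = p ^ k
  · obtain ⟨k, hk⟩ := hn
    have := h k
    rw [tc, tc, ← hk] at this
    exact this
  · rw [hf n hn, hg n hn]

open Classical in
/-- the additive strict series with given coefficients, `t i` is the coefficient of
`x^(p^(i+1))` -/
def addMk (p : ℕ) (t : ℕ → B) : InvSeries B :=
  InvSeries.ofCoeff (fun n => if n = 0 then 1 else
    if h : ∃ k, n + 1 = p ^ (k + 1) then t (Nat.find h) else 0) (by simp)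

theorem addMk_mem (p : ℕ) (t : ℕ → B) : addMk p t ∈ strict B := by
  rw [mem_strict, addMk, InvSeries.c_ofCoeff, if_pos rfl]

theorem isAdd_addMk (p : ℕ) (t : ℕ → B) : IsAdd p (addMk p t) := by
  intro n hn
  rw [addMk, InvSeries.c_ofCoeff, if_neg, dif_neg]
  · rintro ⟨k, hk⟩
    exact hn ⟨k + 1, hk⟩
  · rintro rfl
    exact hn ⟨0, by simp⟩

theorem tc_addMk [hp : Fact p.Prime] (t : ℕ → B) (i : ℕ) : tc p (i + 1) (addMk p t) = t i := by
  rw [tc_eq_c, addMk, InvSeries.c_ofCoeff]
  have h1 : 1 < p ^ (i + 1) := Nat.one_lt_pow (Nat.succ_ne_zero i) hp.out.one_lt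
  have h : ∃ k, p ^ (i + 1) - 1 + 1 = p ^ (k + 1) := ⟨i, by omega⟩
  rw [if_neg (by omega), dif_pos h]
  have h2 := Nat.find_spec h
  have h3 := Nat.pow_right_injective hp.out.two_le ((Nat.sub_add_cancel h1.le).symm.trans h2)
  congr 1
  omega

theorem map_tc {C : Type} [CommRing C] (φ : B →+* C) (i : ℕ) (g : InvSeries B) :
    tc p i (InvSeries.map φ g) = φ (tc p i g) := by
  rw [tc, InvSeries.map_val, PowerSeries.coeff_map]
  rfl

theorem IsAdd.map {C : Type} [CommRing C] (φ : B →+* C) {g : InvSeries B} (hg : IsAdd p g) :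
    IsAdd p (InvSeries.map φ g) := fun n hn => by
  rw [InvSeries.c_map, hg n hn, map_zero]

end coeff

/-! ### the group functors -/

/-- scaling of strict series -/
def scS {B : Type} [CommRing B] (u : Bˣ) : strict B →* strict B where
  toFun g := ⟨(InvSeries.lin u)⁻¹ * g * InvSeries.lin u, by
    have h := strict_normal.conj_mem g.1 g.2 (InvSeries.lin u)⁻¹
    rwa [inv_inv] at h⟩
  map_one' := by
    ext1
    simp
  map_mul' g h := by
    ext1
    simp only [Subgroup.coe_mul]
    group

@[simp] theorem val_scS {B : Type} [CommRing B] (u : Bˣ) (g : strict B) :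
    (scS u g : InvSeries B) = (InvSeries.lin u)⁻¹ * g * InvSeries.lin u := rfl

/-- base change of strict series as a homomorphism -/
def smapH {B C : Type} [CommRing B] [CommRing C] (φ : B →+* C) : strict B →* strict C where
  toFun := smap φ
  map_one' := by
    ext1
    rw [val_smap]
    exact map_one _
  map_mul' g h := by
    ext1
    rw [val_smap, Subgroup.coe_mul, map_mul]
    rfl

@[simp] theorem val_smapH {B C : Type} [CommRing B] [CommRing C] (φ : B →+* C) (g : strict B) :
    (smapH φ g : InvSeries C) = InvSeries.map φ g := rfl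

theorem smapH_scS {B C : Type} [CommRing B] [CommRing C] (φ : B →+* C) (u : Bˣ) (g : strict B) :
    smapH φ (scS u g) = scS (Units.map (φ : B →* C) u) (smapH φ g) := by
  ext1
  rw [val_smapH, val_scS, val_scS, val_smapH, map_mul, map_mul, map_inv, InvSeries.map_lin]

/-- all strict series -/
@[reducible] def strictG (p : ℕ) : Grp p where
  obj B _ _ := strict B
  grp _ _ _ := inferInstance
  map φ := smapH φ
  sc u := scS u
  map_sc φ u g := smapH_scS φ u g

/-- strict automorphisms of the additive law -/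
def addS (B : Type) [CommRing B] : Subgroup (strict B) where
  carrier := {g | (g : InvSeries B) • addLaw B = addLaw B}
  one_mem' := one_smul _ _
  mul_mem' {a b} ha hb := by
    change ((a * b : strict B) : InvSeries B) • addLaw B = addLaw B
    rw [Subgroup.coe_mul, mul_smul, hb, ha]
  inv_mem' {a} ha := by
    change ((a⁻¹ : strict B) : InvSeries B) • addLaw B = addLaw B
    rw [Subgroup.coe_inv, inv_smul_eq_iff]
    exact ha.symm

theorem mem_addS {B : Type} [CommRing B] {g : strict B} :
    g ∈ addS B ↔ (g : InvSeries B) • addLaw B = addLaw B := Iff.rfl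

theorem lin_inv_smul_addLaw {B : Type} [CommRing B] (u : Bˣ) :
    (InvSeries.lin u)⁻¹ • addLaw B = addLaw B := by
  apply Law.ext_ps
  ext d
  have h := coeff_lin_inv_smul u (addLaw B) d
  rw [addLaw_ps] at h ⊢
  apply u.isUnit.mul_left_cancel
  rw [h]
  by_cases hd : d.degree = 1
  · rw [hd, pow_one]
  · have h2 : MvPowerSeries.coeff d (MvPowerSeries.X 0 + MvPowerSeries.X 1 :
        MvPowerSeries (Fin 2) B) = 0 := by
      rw [map_add, MvPowerSeries.coeff_X, MvPowerSeries.coeff_X, if_neg, if_neg, add_zero]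
      · rintro rfl
        exact hd (by simp)
      · rintro rfl
        exact hd (by simp)
    rw [h2, mul_zero, mul_zero]

theorem lin_smul_addLaw {B : Type} [CommRing B] (u : Bˣ) :
    InvSeries.lin u • addLaw B = addLaw B := by
  rw [← eq_inv_smul_iff, lin_inv_smul_addLaw]

/-- base change of strict automorphisms of the additive law -/
def mapA {B C : Type} [CommRing B] [CommRing C] (φ : B →+* C) : addS B →* addS C where
  toFun := fun g => ⟨smapH φ g.1, by
    rw [mem_addS, val_smapH, ← map_addLaw φ, ← InvSeries.map_smul, g.2]⟩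
  map_one' := Subtype.ext (map_one _)
  map_mul' := fun a b => Subtype.ext (map_mul _ _ _)

/-- scaling of strict automorphisms of the additive law -/
def scA {B : Type} [CommRing B] (u : Bˣ) : addS B →* addS B where
  toFun := fun g => ⟨scS u g.1, by
    rw [mem_addS, val_scS, mul_smul, lin_smul_addLaw, mul_smul, g.2, lin_inv_smul_addLaw]⟩
  map_one' := Subtype.ext (map_one _)
  map_mul' := fun a b => Subtype.ext (map_mul _ _ _)

@[simp] theorem val_mapA {B C : Type} [CommRing B] [CommRing C] (φ : B →+* C) (g : addS B) :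
    ((mapA φ g : strict C) : InvSeries C) = InvSeries.map φ ((g : strict B) : InvSeries B) := rfl

@[simp] theorem val_scA {B : Type} [CommRing B] (u : Bˣ) (g : addS B) :
    ((scA u g : strict B) : InvSeries B) =
      (InvSeries.lin u)⁻¹ * ((g : strict B) : InvSeries B) * InvSeries.lin u := rfl

/-- the strict automorphisms of the additive law -/
@[reducible] def addG (p : ℕ) : Grp p where
  obj B _ _ := addS B
  grp _ _ _ := inferInstance
  map φ := mapA φ
  sc u := scA u
  map_sc φ u g := Subtype.ext (smapH_scS φ u g.1)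

end Vale.Agent.P257.H93

end
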