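import Vale.Agent.P257.H93.YonI
import Vale.Agent.P257.H314.CmpInf
import Vale.Agent.P257.H545.Cmp

/-! # P257 / H93 / Cmp : the comparison of `Laz / I_h` with the dual reduced powers

`cmpP p : H545.Cmp p`, with `X = CobP p`, `f = fP p`. -/

noncomputable section

namespace Vale.Agent.P257.H93

open Vale.Agent.P251.F Vale.Agent.P251.F.F3 Vale.Agent.P217 Vale.Agent.P257.H314

variable {p : ℕ} [hp : Fact p.Prime] {n : ℕ} {w : ℤ}

/-- the section of `fI` -/
def gI (z : CobP p n) : Cob (QIinf p) n := toI (Shap.ext (resI p) (ofP z))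

theorem ofI_gI (z : CobP p n) : ofI (gI z) = Shap.ext (resI p) (ofP z) := ofI_toI _

theorem fI_gI (z : CobP p n) : fI p n (gI z) = z := by
  apply ofP_injective
  rw [ofP_fI, ofI_gI, Shap.res_ext]

theorem gI_d (z : CobP p n) : gI (dP n z) = Cob.d n (gI z) := by
  apply ofI_injective
  rw [ofI_gI, ofI_d, ofI_gI, ofP_dP, Shap.ext_d]

theorem gI_zero : gI (0 : CobP p n) = 0 := by
  apply ofI_injective
  rw [ofI_gI, ofI_zero, ofP_zero]
  exact Coch.ext' fun x g => by rw [Shap.ext_f]; simp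

theorem gI_wt {z : CobP p n} (hz : IsWtP p n w z) : Cob.IsWt w (gI z) := by
  rw [← isWt_ofI, ofI_gI]
  exact Shap.isWt_ext _ (isWt_ofP.2 hz)

/-- the homotopy -/
def hI (z : Cob (QIinf p) (n + 1)) : Cob (QIinf p) n := toI ((ofI z).hOp (shapI p).nmap)

theorem hI_wt {z : Cob (QIinf p) (n + 1)} (hz : Cob.IsWt w z) : Cob.IsWt w (hI z) := by
  rw [← isWt_ofI, hI, ofI_toI]
  exact Coch.IsWt.hOp (isWt_ofI.2 hz) _

theorem hI_d {z : Cob (QIinf p) (n + 1)} (hz : Cob.d (n + 1) z = 0) :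
    Cob.d n (hI z) = gI (fI p (n + 1) z) - z := by
  apply ofI_injective
  rw [ofI_d, hI, ofI_toI, ofI_sub, ofI_gI, ofP_fI, Shap.ext_res]
  have h := Coch.hOp_d (shapI p).nmap (ofI z)
  have h0 : (0 : Coch (XI p) (triv (strictG p)) (n + 2)).hOp (shapI p).nmap = 0 :=
    Coch.ext' fun x g => by rw [Coch.hOp_f]; simp [hS]
  rw [← ofI_d, hz, ofI_zero, h0, zero_add] at h
  exact h

theorem hI_d_zero {z : Cob (QIinf p) 0} (hz : Cob.d 0 z = 0) : gI (fI p 0 z) = z := by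
  apply ofI_injective
  rw [ofI_gI, ofP_fI, Shap.ext_res]
  have h := Coch.hOp_d_zero (shapI p).nmap (ofI z)
  have h0 : (0 : Coch (XI p) (triv (strictG p)) 1).hOp (shapI p).nmap = 0 :=
    Coch.ext' fun x g => by rw [Coch.hOp_f]; simp [hS]
  rw [← ofI_d, hz, ofI_zero, h0] at h
  exact (sub_eq_zero.1 h.symm)

theorem inj_zero_I {z : Cob (QIinf p) 0} (hd : Cob.d 0 z = 0) (hf : fI p 0 z = 0) : z = 0 := by
  rw [← hI_d_zero hd, hf, gI_zero]

theorem inj_I {z : Cob (QIinf p) (n + 1)} (hz : Cob.IsWt w z) (hd : Cob.d (n + 1) z = 0)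
    {y : CobP p n} (hy : IsWtP p n w y) (hyz : dP n y = fI p (n + 1) z) :
    ∃ y' : Cob (QIinf p) n, Cob.IsWt w y' ∧ z = Cob.d n y' := by
  refine ⟨gI y - hI z, (Cob.wt (QIinf p) n w).sub_mem (gI_wt hy) (hI_wt hz), ?_⟩
  rw [map_sub, hI_d hd, ← gI_d, hyz]
  abel

theorem fP_toInf (z : Cob Laz n) : fP p n z = fI p n (toInf p n z) := rfl

theorem d_cupP_two {a : ℕ} (x : CobP p a) {y : CobP p 2} (hy : dP 2 y = 0) :
    dP (a + 2) (cupP (a := a) (b := 2) x y) = cupP (a := a + 1) (b := 2) (dP a x) y := by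
  rw [dP_cupP, hy, cupP_zero, map_zero, smul_zero, add_zero]
  have h : ∀ (m : ℕ) (h : m = m) (z : CobP p m), castP h z = z := by
    intro m h z
    apply ext_evG
    intro B _ _ g
    rw [evG_castP]
  exact h _ _ _

/-- The comparison of the cobar complexes of `Laz / I_h` and of the dual reduced powers. -/
def cmpP (p : ℕ) [Fact p.Prime] : H545.Cmp p where
  X := CobP p
  ring _ := inferInstance
  d := dP
  IsWt {n} w z := IsWtP p n w z
  add_wt := IsWtP.add
  neg_wt := IsWtP.neg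
  zero_wt {n w} := isWtP_zero (p := p) (n := n) w
  d_wt := IsWtP.dP
  d_d {n} z := dP_dP n z
  cup := cupP
  cup_wt := IsWtP.cupP
  add_cup := add_cupP
  cup_add := cupP_add
  d_cup_two x _ hy := d_cupP_two x hy
  f n := fP p n
  f_IC := fP_IC
  f_d := fP_d
  f_cup := fP_cup
  f_wt := fP_wt
  inj_zero {h w} _ hw z hz hd hf :=
    inj_zero_of_inf hw (fI p 0) (fun _ _ h1 h2 => inj_zero_I h1 h2) hz hd hf
  inj {h n w} _ hw z hz hd y hy hyz :=
    inj_of_inf hw (dP n) (IsWtP p n w) (fI p (n + 1))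
      (fun z hz hd y hy hyz => inj_I hz hd hy hyz) hz hd hy hyz
  surj {h n w} _ hw c hc hd := by
    obtain ⟨z', hz', hdz', heq⟩ := surj_of_inf hw (gI_wt hc) (by rw [← gI_d, hd, gI_zero])
    refine ⟨z', 0, hz', isWtP_zero w, hdz', ?_⟩
    rw [map_zero, add_zero, fP_toInf, heq, fI_gI]

end Vale.Agent.P257.H93

end
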