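import Vale.Agent.P257.H93.Shap

/-! # P257 / H93 / LES : short exact sequences of representations -/

noncomputable section

namespace Vale.Agent.P257.H93

open Vale.Agent.P251.F.F3

variable {p : ℕ} {𝒢 : Grp p}

/-- the same representation, with the weights of all elements raised by `a` -/
@[reducible] def Rep.shift (ℳ : Rep 𝒢) (a : ℤ) : Rep 𝒢 where
  obj B _ _ := ℳ.obj B
  acg _ _ _ := inferInstance
  mod _ _ _ := inferInstance
  act _ _ _ := inferInstance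
  scc _ _ _ := inferInstance
  map φ := ℳ.map φ
  map_smulB := ℳ.map_smulB
  map_smul := ℳ.map_smul
  sc {B} _ _ u := ((u ^ a : Bˣ) : B) • ℳ.sc u
  sc_smul u g m := by
    rw [LinearMap.smul_apply, LinearMap.smul_apply, ℳ.sc_smul]
    exact (smul_comm g _ _).symm
  map_sc φ u m := by
    rw [LinearMap.smul_apply, LinearMap.smul_apply, ℳ.map_smulB, ℳ.map_sc, ← map_zpow]
    rfl

/-- equivariant natural linear maps -/
structure RHom (ℳ 𝒩 : Rep 𝒢) where
  h : ∀ {B : Type} [CommRing B] [FpA p B], ℳ.obj B →ₗ[B] 𝒩.obj B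
  nat : ∀ {B C : Type} [CommRing B] [FpA p B] [CommRing C] [FpA p C] (φ : B →+* C)
    (m : ℳ.obj B), h (ℳ.map φ m) = 𝒩.map φ (h m)
  scal : ∀ {B : Type} [CommRing B] [FpA p B] (u : Bˣ) (m : ℳ.obj B),
    h (ℳ.sc u m) = 𝒩.sc u (h m)
  eqv : ∀ {B : Type} [CommRing B] [FpA p B] (g : 𝒢.obj B) (m : ℳ.obj B), h (g • m) = g • h m

/-- natural linear maps without equivariance -/
structure RLin (ℳ 𝒩 : Rep 𝒢) where
  h : ∀ {B : Type} [CommRing B] [FpA p B], ℳ.obj B →ₗ[B] 𝒩.obj B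
  nat : ∀ {B C : Type} [CommRing B] [FpA p B] [CommRing C] [FpA p C] (φ : B →+* C)
    (m : ℳ.obj B), h (ℳ.map φ m) = 𝒩.map φ (h m)
  scal : ∀ {B : Type} [CommRing B] [FpA p B] (u : Bˣ) (m : ℳ.obj B),
    h (ℳ.sc u m) = 𝒩.sc u (h m)

/-- short exact sequences which are split as sequences of functors of modules -/
structure SES (ℳ' ℳ ℳ'' : Rep 𝒢) where
  i : RHom ℳ' ℳ
  q : RHom ℳ ℳ''
  s : RLin ℳ'' ℳ
  i_inj : ∀ {B : Type} [CommRing B] [FpA p B], Function.Injective (i.h (B := B))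
  q_s : ∀ {B : Type} [CommRing B] [FpA p B] (m : ℳ''.obj B), q.h (s.h m) = m
  q_i : ∀ {B : Type} [CommRing B] [FpA p B] (m : ℳ'.obj B), q.h (i.h m) = 0
  exact : ∀ {B : Type} [CommRing B] [FpA p B] (m : ℳ.obj B), q.h m = 0 → ∃ m', i.h m' = m

namespace Coch

variable {𝒳 : GSet 𝒢} {ℳ 𝒩 ℳ' ℳ'' : Rep 𝒢} {n : ℕ}

/-- change of coefficients -/
def push (f : RHom ℳ 𝒩) (F : Coch 𝒳 ℳ n) : Coch 𝒳 𝒩 n where
  f x g := f.h (F.f x g)
  nat φ x g := by rw [F.nat, f.nat]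
  loc x g g' h := by rw [F.loc x g g' h]
  eqv h x g := by rw [F.eqv, f.eqv]

theorem push_f {B : Type} [CommRing B] [FpA p B] (f : RHom ℳ 𝒩) (F : Coch 𝒳 ℳ n) (x : 𝒳.obj B)
    (g : ℕ → 𝒢.obj B) : (F.push f).f x g = f.h (F.f x g) := rfl

theorem push_d (f : RHom ℳ 𝒩) (F : Coch 𝒳 ℳ n) : (F.push f).d = F.d.push f :=
  ext' fun _ g => dS_map n f.h.toAddMonoidHom _ g

@[simp] theorem push_zero (f : RHom ℳ 𝒩) : (0 : Coch 𝒳 ℳ n).push f = 0 :=
  ext' fun _ _ => map_zero _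

@[simp] theorem push_add (f : RHom ℳ 𝒩) (F E : Coch 𝒳 ℳ n) :
    (F + E).push f = F.push f + E.push f := ext' fun _ _ => map_add _ _ _

@[simp] theorem push_neg (f : RHom ℳ 𝒩) (F : Coch 𝒳 ℳ n) :
    (-F).push f = -F.push f := ext' fun _ _ => map_neg _ _

@[simp] theorem push_sub (f : RHom ℳ 𝒩) (F E : Coch 𝒳 ℳ n) :
    (F - E).push f = F.push f - E.push f := by
  rw [sub_eq_add_neg, push_add, push_neg, sub_eq_add_neg]

theorem IsWt.push {w : ℤ} {F : Coch 𝒳 ℳ n} (hF : F.IsWt w) (f : RHom ℳ 𝒩) :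
    (F.push f).IsWt w := fun u x g => by
  rw [push_f, push_f, ← f.scal, hF, map_smul]

theorem push_injective (S : SES ℳ' ℳ ℳ'') :
    Function.Injective (push S.i : Coch 𝒳 ℳ' n → Coch 𝒳 ℳ n) := fun _ _ h =>
  ext' fun x g => S.i_inj (congrArg (fun F : Coch 𝒳 ℳ n => F.f x g) h)

theorem isWt_of_push {w : ℤ} (S : SES ℳ' ℳ ℳ'') {F : Coch 𝒳 ℳ' n} (hF : (F.push S.i).IsWt w) :
    F.IsWt w := fun u x g => by
  apply S.i_inj
  rw [S.i.scal, map_smul]
  exact hF u x g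

/-- lifting of cochains -/
def lift (S : SES ℳ' ℳ ℳ'') (F : Coch 𝒳 ℳ'' n) : Coch 𝒳 ℳ n where
  f x g := (g 0)⁻¹ • S.s.h (g 0 • F.f x g)
  nat φ x g := by
    rw [F.nat, ℳ.map_smul, map_inv, ← S.s.nat, ℳ''.map_smul]
  loc x g g' h := by rw [F.loc x g g' h, h 0 (Nat.zero_le _)]
  eqv h x g := by
    rw [F.eqv, smul_smul, inv_mul_cancel_right, mul_inv_rev, inv_inv, mul_smul]

theorem lift_f {B : Type} [CommRing B] [FpA p B] (S : SES ℳ' ℳ ℳ'') (F : Coch 𝒳 ℳ'' n)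
    (x : 𝒳.obj B) (g : ℕ → 𝒢.obj B) :
    (F.lift S).f x g = (g 0)⁻¹ • S.s.h (g 0 • F.f x g) := rfl

theorem push_lift (S : SES ℳ' ℳ ℳ'') (F : Coch 𝒳 ℳ'' n) : (F.lift S).push S.q = F :=
  ext' fun x g => by
  rw [push_f, lift_f, S.q.eqv, S.q_s, inv_smul_smul]

theorem IsWt.lift {w : ℤ} {F : Coch 𝒳 ℳ'' n} (hF : F.IsWt w) (S : SES ℳ' ℳ ℳ'') :
    (F.lift S).IsWt w := fun u x g => by
  rw [lift_f, lift_f, ← map_inv, ℳ.sc_smul, ← smul_comm]
  congr 1
  rw [← S.s.scal, ℳ''.sc_smul, hF, ← map_smul, smul_comm]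

/-- cochains with values in the kernel -/
theorem exists_push (S : SES ℳ' ℳ ℳ'') (F : Coch 𝒳 ℳ n) (hF : F.push S.q = 0) :
    ∃ E : Coch 𝒳 ℳ' n, E.push S.i = F := by
  have h : ∀ {B : Type} [CommRing B] [FpA p B] (x : 𝒳.obj B) (g : ℕ → 𝒢.obj B),
      ∃ m, S.i.h m = F.f x g := fun x g =>
    S.exact _ (congrArg (fun F : Coch 𝒳 ℳ'' n => F.f x g) hF)
  refine ⟨{ f := fun x g => (h x g).choose, nat := ?_, loc := ?_, eqv := ?_ }, ?_⟩
  · intro B C _ _ _ _ φ x g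
    apply S.i_inj
    rw [S.i.nat, (h x g).choose_spec, (h _ _).choose_spec, F.nat]
  · intro B _ _ x g g' hg
    apply S.i_inj
    rw [(h _ _).choose_spec, (h _ _).choose_spec, F.loc x g g' hg]
  · intro B _ _ k x g
    apply S.i_inj
    rw [(h _ _).choose_spec, S.i.eqv, (h _ _).choose_spec, F.eqv]
  · exact ext' fun x g => (h x g).choose_spec

end Coch

namespace SES

open Coch

variable {𝒳 : GSet 𝒢} {ℳ' ℳ ℳ'' : Rep 𝒢} (S : SES ℳ' ℳ ℳ'') {n : ℕ} {w : ℤ}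

include S

/-- `H^n(ℳ') = 0` and `H^n(ℳ'') = 0` imply `H^n(ℳ) = 0` -/
theorem van_mid (h' : Van 𝒳 ℳ' n w) (h'' : Van 𝒳 ℳ'' n w) : Van 𝒳 ℳ n w := by
  rcases n with _ | n
  · rw [van_zero] at *
    intro F hF hd
    have h1 := h'' (F.push S.q) (hF.push _) (by rw [push_d, hd, push_zero])
    obtain ⟨E, rfl⟩ := exists_push S F h1
    rw [h' E (isWt_of_push S hF) (push_injective S (by rw [← push_d, hd, push_zero])), push_zero]
  · rw [van_succ] at *
    intro F hF hd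
    obtain ⟨E, hE, h1⟩ := h'' (F.push S.q) (hF.push _) (by rw [push_d, hd, push_zero])
    obtain ⟨E', h2⟩ := exists_push S (F - (E.lift S).d)
      (by rw [push_sub, ← push_d, push_lift, h1, sub_self])
    have hw : E'.IsWt w := isWt_of_push S (by
      rw [h2]
      exact IsWt.sub hF (IsWt.d (IsWt.lift hE S)))
    obtain ⟨E'', hE'', h3⟩ := h' E' hw (push_injective S (by
      rw [← push_d, h2, d_sub, hd, d_d, sub_self, push_zero]))
    refine ⟨E''.push S.i + E.lift S, IsWt.add (hE''.push _) (IsWt.lift hE S), ?_⟩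
    rw [d_add, push_d, h3, h2, sub_add_cancel]

/-- `H^n(ℳ) = 0` and `H^{n-1}(ℳ'') = 0` imply `H^n(ℳ') = 0` -/
theorem van_left (h : Van 𝒳 ℳ (n + 1) w) (h'' : Van 𝒳 ℳ'' n w) : Van 𝒳 ℳ' (n + 1) w := by
  rw [van_succ] at *
  intro F hF hd
  obtain ⟨E, hE, h1⟩ := h (F.push S.i) (hF.push _) (by rw [push_d, hd, push_zero])
  have hcl : (E.push S.q).d = 0 := by
    rw [push_d, h1]
    exact ext' fun x g => S.q_i _
  rcases n with _ | n
  · rw [van_zero] at h''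
    have h2 := h'' (E.push S.q) (hE.push _) hcl
    obtain ⟨E', rfl⟩ := exists_push S E h2
    exact ⟨E', isWt_of_push S hE, push_injective S (by rw [← push_d, h1])⟩
  · rw [van_succ] at h''
    obtain ⟨K, hK, h2⟩ := h'' (E.push S.q) (hE.push _) hcl
    obtain ⟨E', h3⟩ := exists_push S (E - (K.lift S).d)
      (by rw [push_sub, ← push_d, push_lift, h2, sub_self])
    refine ⟨E', isWt_of_push S (by rw [h3]; exact IsWt.sub hE (IsWt.d (IsWt.lift hK S))),
      push_injective S ?_⟩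
    rw [← push_d, h3, d_sub, d_d, sub_zero, h1]

theorem van_left_zero (h : Van 𝒳 ℳ 0 w) : Van 𝒳 ℳ' 0 w := by
  rw [van_zero] at *
  intro F hF hd
  apply push_injective S
  rw [h (F.push S.i) (hF.push _) (by rw [push_d, hd, push_zero]), push_zero]

/-- `H^n(ℳ) = 0` and `H^{n+1}(ℳ') = 0` imply `H^n(ℳ'') = 0` -/
theorem van_right (h : Van 𝒳 ℳ n w) (h' : Van 𝒳 ℳ' (n + 1) w) : Van 𝒳 ℳ'' n w := by
  have key : ∀ F : Coch 𝒳 ℳ'' n, F.IsWt w → F.d = 0 →
      ∃ G : Coch 𝒳 ℳ n, G.IsWt w ∧ G.d = 0 ∧ G.push S.q = F := by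
    intro F hF hd
    obtain ⟨E, h1⟩ := exists_push S (F.lift S).d (by rw [← push_d, push_lift, hd])
    obtain ⟨K, hK, h2⟩ := van_succ.1 h' E (isWt_of_push S (by
      rw [h1]; exact IsWt.d (IsWt.lift hF S))) (push_injective S (by
        rw [← push_d, h1, d_d, push_zero]))
    refine ⟨F.lift S - K.push S.i, IsWt.sub (IsWt.lift hF S) (hK.push _), ?_, ?_⟩
    · rw [d_sub, push_d, h2, h1, sub_self]
    · rw [push_sub, push_lift]
      have : (K.push S.i).push S.q = 0 := ext' fun x g => S.q_i _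
      rw [this, sub_zero]
  rcases n with _ | n
  · rw [van_zero] at *
    intro F hF hd
    obtain ⟨G, hG, h1, rfl⟩ := key F hF hd
    rw [h G hG h1, push_zero]
  · rw [van_succ] at h ⊢
    intro F hF hd
    obtain ⟨G, hG, h1, rfl⟩ := key F hF hd
    obtain ⟨K, hK, h2⟩ := h G hG h1
    exact ⟨K.push S.q, hK.push _, by rw [push_d, h2]⟩

end SES

/-! ### shifts -/

section shift

variable {𝒳 : GSet 𝒢} {ℳ : Rep 𝒢} {n : ℕ} {w a : ℤ}

/-- cochains with values in a shift -/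
def Coch.toShift (a : ℤ) (F : Coch 𝒳 ℳ n) : Coch 𝒳 (ℳ.shift a) n where
  f x g := F.f x g
  nat := F.nat
  loc := F.loc
  eqv := F.eqv

/-- cochains with values in a shift -/
def Coch.ofShift (F : Coch 𝒳 (ℳ.shift a) n) : Coch 𝒳 ℳ n where
  f x g := F.f x g
  nat := F.nat
  loc := F.loc
  eqv := F.eqv

theorem Coch.isWt_toShift {F : Coch 𝒳 ℳ n} : (F.toShift a).IsWt w ↔ F.IsWt (w - a) := by
  have key : ∀ {B : Type} [CommRing B] [FpA p B] (u : Bˣ) (m m' : ℳ.obj B),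
      ((u ^ a : Bˣ) : B) • m = ((u ^ w : Bˣ) : B) • m' ↔ m = ((u ^ (w - a) : Bˣ) : B) • m' := by
    intro B _ _ u m m'
    constructor
    · intro h
      have := congrArg (fun m => (((u ^ a)⁻¹ : Bˣ) : B) • m) h
      simp only [smul_smul, ← Units.val_mul, inv_mul_cancel, Units.val_one, one_smul] at this
      rw [this, zpow_sub, mul_comm]
    · rintro rfl
      rw [smul_smul, ← Units.val_mul, ← zpow_add, add_sub_cancel]
  constructor
  · intro h B _ _ u x g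
    exact (key u _ _).1 (h u x g)
  · intro h B _ _ u x g
    exact (key u _ _).2 (h u x g)

theorem van_shift : Van 𝒳 (ℳ.shift a) n w ↔ Van 𝒳 ℳ n (w - a) := by
  rcases n with _ | n
  · rw [van_zero, van_zero]
    constructor
    · intro h F hF hd
      have := h (F.toShift a) (Coch.isWt_toShift.2 hF)
        (Coch.ext' fun x g => congrArg (fun F : Coch 𝒳 ℳ 1 => F.f x g) hd)
      exact Coch.ext' fun x g => congrArg (fun F : Coch 𝒳 (ℳ.shift a) 0 => F.f x g) this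
    · intro h F hF hd
      have := h F.ofShift ((Coch.isWt_toShift (F := F.ofShift)).1 hF)
        (Coch.ext' fun x g => congrArg (fun F : Coch 𝒳 (ℳ.shift a) 1 => F.f x g) hd)
      exact Coch.ext' fun x g => congrArg (fun F : Coch 𝒳 ℳ 0 => F.f x g) this
  · rw [van_succ, van_succ]
    constructor
    · intro h F hF hd
      obtain ⟨E, hE, h1⟩ := h (F.toShift a) (Coch.isWt_toShift.2 hF)
        (Coch.ext' fun x g => congrArg (fun F : Coch 𝒳 ℳ (n + 2) => F.f x g) hd)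
      exact ⟨E.ofShift, (Coch.isWt_toShift (F := E.ofShift)).1 hE,
        Coch.ext' fun x g => congrArg (fun F : Coch 𝒳 (ℳ.shift a) (n + 1) => F.f x g) h1⟩
    · intro h F hF hd
      obtain ⟨E, hE, h1⟩ := h F.ofShift ((Coch.isWt_toShift (F := F.ofShift)).1 hF)
        (Coch.ext' fun x g => congrArg (fun F : Coch 𝒳 (ℳ.shift a) (n + 2) => F.f x g) hd)
      exact ⟨E.toShift a, Coch.isWt_toShift.2 hE,
        Coch.ext' fun x g => congrArg (fun F : Coch 𝒳 ℳ (n + 1) => F.f x g) h1⟩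

end shift

end Vale.Agent.P257.H93

end
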