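import Vale.Agent.P257.H93.Seq

/-! # P257 / H93 / Nat : natural cochains of group functors over `F_p`-algebras

`Grp p` : group functors on `F_p`-algebras with a scaling by units; `GSet 𝒢`: functors with an
action; `Rep 𝒢`: linear representations. `Coch 𝒳 ℳ n`: homogeneous `n`-cochains
`F(x; g_0,…,g_n) ∈ ℳ`, natural, with `F(h x; g_k h⁻¹) = h F(x; g_k)`: the simplex is
`g_0 x → g_1 x → … → g_n x`, the value lies in the fibre at `x`. -/

noncomputable section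

namespace Vale.Agent.P257.H93

open Vale.Agent.P251.F.F3

/-- `p = 0` in `B` -/
class FpA (p : ℕ) (B : Type) [CommRing B] : Prop where
  cast : (p : B) = 0

theorem FpA.of_hom {p : ℕ} {B C : Type} [CommRing B] [CommRing C] (φ : B →+* C) [FpA p B] :
    FpA p C := ⟨by rw [← map_natCast φ, FpA.cast (p := p) (B := B), map_zero]⟩

/-- group functors on `F_p`-algebras -/
structure Grp (p : ℕ) where
  obj : (B : Type) → [CommRing B] → [FpA p B] → Type
  [grp : ∀ (B : Type) [CommRing B] [FpA p B], Group (obj B)]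
  map : ∀ {B C : Type} [CommRing B] [FpA p B] [CommRing C] [FpA p C],
    (B →+* C) → (obj B →* obj C)
  sc : ∀ {B : Type} [CommRing B] [FpA p B], Bˣ → (obj B →* obj B)
  map_sc : ∀ {B C : Type} [CommRing B] [FpA p B] [CommRing C] [FpA p C] (φ : B →+* C)
    (u : Bˣ) (g : obj B), map φ (sc u g) = sc (Units.map (φ : B →* C) u) (map φ g)

attribute [instance] Grp.grp

variable {p : ℕ}

/-- functors with an action -/
structure GSet (𝒢 : Grp p) where
  obj : (B : Type) → [CommRing B] → [FpA p B] → Type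
  [act : ∀ (B : Type) [CommRing B] [FpA p B], MulAction (𝒢.obj B) (obj B)]
  map : ∀ {B C : Type} [CommRing B] [FpA p B] [CommRing C] [FpA p C],
    (B →+* C) → obj B → obj C
  map_smul : ∀ {B C : Type} [CommRing B] [FpA p B] [CommRing C] [FpA p C] (φ : B →+* C)
    (g : 𝒢.obj B) (x : obj B), map φ (g • x) = 𝒢.map φ g • map φ x
  sc : ∀ {B : Type} [CommRing B] [FpA p B], Bˣ → obj B → obj B
  sc_smul : ∀ {B : Type} [CommRing B] [FpA p B] (u : Bˣ) (g : 𝒢.obj B) (x : obj B),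
    sc u (g • x) = 𝒢.sc u g • sc u x
  map_sc : ∀ {B C : Type} [CommRing B] [FpA p B] [CommRing C] [FpA p C] (φ : B →+* C)
    (u : Bˣ) (x : obj B), map φ (sc u x) = sc (Units.map (φ : B →* C) u) (map φ x)

attribute [instance] GSet.act

/-- linear representations; a basis vector of weight `w` is multiplied by `u ^ w` by `sc u` -/
structure Rep (𝒢 : Grp p) where
  obj : (B : Type) → [CommRing B] → [FpA p B] → Type
  [acg : ∀ (B : Type) [CommRing B] [FpA p B], AddCommGroup (obj B)]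
  [mod : ∀ (B : Type) [CommRing B] [FpA p B], Module B (obj B)]
  [act : ∀ (B : Type) [CommRing B] [FpA p B], DistribMulAction (𝒢.obj B) (obj B)]
  [scc : ∀ (B : Type) [CommRing B] [FpA p B], SMulCommClass (𝒢.obj B) B (obj B)]
  map : ∀ {B C : Type} [CommRing B] [FpA p B] [CommRing C] [FpA p C],
    (B →+* C) → (obj B →+ obj C)
  map_smulB : ∀ {B C : Type} [CommRing B] [FpA p B] [CommRing C] [FpA p C] (φ : B →+* C)
    (b : B) (m : obj B), map φ (b • m) = φ b • map φ m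
  map_smul : ∀ {B C : Type} [CommRing B] [FpA p B] [CommRing C] [FpA p C] (φ : B →+* C)
    (g : 𝒢.obj B) (m : obj B), map φ (g • m) = 𝒢.map φ g • map φ m
  sc : ∀ {B : Type} [CommRing B] [FpA p B], Bˣ → (obj B →ₗ[B] obj B)
  sc_smul : ∀ {B : Type} [CommRing B] [FpA p B] (u : Bˣ) (g : 𝒢.obj B) (m : obj B),
    sc u (𝒢.sc u g • m) = g • sc u m
  map_sc : ∀ {B C : Type} [CommRing B] [FpA p B] [CommRing C] [FpA p C] (φ : B →+* C)
    (u : Bˣ) (m : obj B), map φ (sc u m) = sc (Units.map (φ : B →* C) u) (map φ m)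

attribute [instance] Rep.acg Rep.mod Rep.act Rep.scc

/-- the one-point functor -/
@[reducible] def pt (𝒢 : Grp p) : GSet 𝒢 where
  obj _ _ _ := Unit
  act _ _ _ := { smul := fun _ _ => (), one_smul := fun _ => rfl, mul_smul := fun _ _ _ => rfl }
  map _ _ := ()
  map_smul _ _ _ := rfl
  sc _ _ := ()
  sc_smul _ _ _ := rfl
  map_sc _ _ _ := rfl

/-- the trivial action -/
@[reducible] def trivAct (𝒢 : Grp p) (B : Type) [CommRing B] [FpA p B] :
    DistribMulAction (𝒢.obj B) B where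
  smul := fun _ b => b
  one_smul := fun _ => rfl
  mul_smul := fun _ _ _ => rfl
  smul_zero := fun _ => rfl
  smul_add := fun _ _ _ => rfl

theorem trivScc (𝒢 : Grp p) (B : Type) [CommRing B] [FpA p B] :
    let _ := trivAct 𝒢 B
    SMulCommClass (𝒢.obj B) B B := by
  let _ := trivAct 𝒢 B
  exact ⟨fun _ _ _ => rfl⟩

/-- the trivial representation, `1` has weight `0` -/
@[reducible] def triv (𝒢 : Grp p) : Rep 𝒢 where
  obj B _ _ := B
  acg _ _ _ := inferInstance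
  mod _ _ _ := inferInstance
  act B _ _ := trivAct 𝒢 B
  scc B _ _ := trivScc 𝒢 B
  map φ := φ.toAddMonoidHom
  map_smulB φ a b := map_mul φ a b
  map_smul _ _ _ := rfl
  sc _ := LinearMap.id
  sc_smul _ _ _ := rfl
  map_sc _ _ _ := rfl

variable {𝒢 : Grp p}

/-- natural homogeneous cochains -/
@[ext] structure Coch (𝒳 : GSet 𝒢) (ℳ : Rep 𝒢) (n : ℕ) where
  f : ∀ {B : Type} [CommRing B] [FpA p B], 𝒳.obj B → (ℕ → 𝒢.obj B) → ℳ.obj B
  nat : ∀ {B C : Type} [CommRing B] [FpA p B] [CommRing C] [FpA p C] (φ : B →+* C)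
    (x : 𝒳.obj B) (g : ℕ → 𝒢.obj B), f (𝒳.map φ x) (fun k => 𝒢.map φ (g k)) = ℳ.map φ (f x g)
  loc : ∀ {B : Type} [CommRing B] [FpA p B] (x : 𝒳.obj B) (g g' : ℕ → 𝒢.obj B),
    (∀ k ≤ n, g k = g' k) → f x g = f x g'
  eqv : ∀ {B : Type} [CommRing B] [FpA p B] (h : 𝒢.obj B) (x : 𝒳.obj B) (g : ℕ → 𝒢.obj B),
    f (h • x) (fun k => g k * h⁻¹) = h • f x g

namespace Coch

variable {𝒳 : GSet 𝒢} {ℳ : Rep 𝒢} {n : ℕ}

theorem ext' {F E : Coch 𝒳 ℳ n} (h : ∀ {B : Type} [CommRing B] [FpA p B] (x : 𝒳.obj B)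
    (g : ℕ → 𝒢.obj B), F.f x g = E.f x g) : F = E := by
  ext1
  funext B _ _ x g
  exact h x g

instance : Zero (Coch 𝒳 ℳ n) where
  zero := { f := fun _ _ => 0, nat := fun φ _ _ => (map_zero (ℳ.map φ)).symm,
            loc := fun _ _ _ _ => rfl, eqv := fun h _ _ => (smul_zero h).symm }

instance : Add (Coch 𝒳 ℳ n) where
  add F E := { f := fun x g => F.f x g + E.f x g
               nat := fun φ x g => by rw [F.nat, E.nat, map_add]
               loc := fun x g g' h => by rw [F.loc x g g' h, E.loc x g g' h]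
               eqv := fun h x g => by rw [F.eqv, E.eqv, smul_add] }

instance : Neg (Coch 𝒳 ℳ n) where
  neg F := { f := fun x g => - F.f x g
             nat := fun φ x g => by rw [F.nat, map_neg]
             loc := fun x g g' h => by rw [F.loc x g g' h]
             eqv := fun h x g => by rw [F.eqv, smul_neg] }

@[simp] theorem zero_f {B : Type} [CommRing B] [FpA p B] (x : 𝒳.obj B) (g : ℕ → 𝒢.obj B) :
    (0 : Coch 𝒳 ℳ n).f x g = 0 := rfl
@[simp] theorem add_f {B : Type} [CommRing B] [FpA p B] (F E : Coch 𝒳 ℳ n) (x : 𝒳.obj B)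
    (g : ℕ → 𝒢.obj B) : (F + E).f x g = F.f x g + E.f x g := rfl
@[simp] theorem neg_f {B : Type} [CommRing B] [FpA p B] (F : Coch 𝒳 ℳ n) (x : 𝒳.obj B)
    (g : ℕ → 𝒢.obj B) : (-F).f x g = - F.f x g := rfl

instance : AddCommGroup (Coch 𝒳 ℳ n) where
  add_assoc _ _ _ := ext' fun _ _ => add_assoc _ _ _
  zero_add _ := ext' fun _ _ => zero_add _
  add_zero _ := ext' fun _ _ => add_zero _
  add_comm _ _ := ext' fun _ _ => add_comm _ _
  neg_add_cancel _ := ext' fun _ _ => neg_add_cancel _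
  nsmul := nsmulRec
  zsmul := zsmulRec

@[simp] theorem sub_f {B : Type} [CommRing B] [FpA p B] (F E : Coch 𝒳 ℳ n) (x : 𝒳.obj B)
    (g : ℕ → 𝒢.obj B) : (F - E).f x g = F.f x g - E.f x g := by
  rw [sub_eq_add_neg, add_f, neg_f, sub_eq_add_neg]

/-- evaluation -/
def evH {B : Type} [CommRing B] [FpA p B] (x : 𝒳.obj B) (g : ℕ → 𝒢.obj B) :
    Coch 𝒳 ℳ n →+ ℳ.obj B where
  toFun F := F.f x g
  map_zero' := rfl
  map_add' _ _ := rfl

@[simp] theorem zsmul_f {B : Type} [CommRing B] [FpA p B] (c : ℤ) (F : Coch 𝒳 ℳ n)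
    (x : 𝒳.obj B) (g : ℕ → 𝒢.obj B) : (c • F).f x g = c • F.f x g :=
  map_zsmul (evH x g) c F

@[simp] theorem nsmul_f {B : Type} [CommRing B] [FpA p B] (c : ℕ) (F : Coch 𝒳 ℳ n)
    (x : 𝒳.obj B) (g : ℕ → 𝒢.obj B) : (c • F).f x g = c • F.f x g :=
  map_nsmul (evH x g) c F

@[simp] theorem sum_f {B : Type} [CommRing B] [FpA p B] {ι : Type*} (s : Finset ι)
    (F : ι → Coch 𝒳 ℳ n) (x : 𝒳.obj B) (g : ℕ → 𝒢.obj B) :
    (∑ i ∈ s, F i).f x g = ∑ i ∈ s, (F i).f x g :=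
  map_sum (evH x g) F s

/-- the differential -/
def d (F : Coch 𝒳 ℳ n) : Coch 𝒳 ℳ (n + 1) where
  f x g := dS n (F.f x) g
  nat φ x g := by
    simp only [dS_apply, map_sum, map_zsmul]
    refine Finset.sum_congr rfl fun j _ => ?_
    rw [← F.nat]
    congr 2
    funext k
    simp only [del]
    split_ifs <;> rfl
  loc x g g' h := dS_congr (F.loc x) h
  eqv h x g := by
    simp only [dS_apply, Finset.smul_sum]
    refine Finset.sum_congr rfl fun j _ => ?_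
    rw [smul_comm h, ← F.eqv]
    congr 2
    funext k
    simp only [del]
    split_ifs <;> rfl

theorem d_f {B : Type} [CommRing B] [FpA p B] (F : Coch 𝒳 ℳ n) (x : 𝒳.obj B)
    (g : ℕ → 𝒢.obj B) : F.d.f x g = dS n (F.f x) g := rfl

@[simp] theorem d_d (F : Coch 𝒳 ℳ n) : F.d.d = 0 := ext' fun x g => dS_dS n (F.f x) g

@[simp] theorem d_add (F E : Coch 𝒳 ℳ n) : (F + E).d = F.d + E.d :=
  ext' fun _ _ => dS_add n _ _ _

@[simp] theorem d_neg (F : Coch 𝒳 ℳ n) : (-F).d = -F.d := ext' fun _ _ => dS_neg n _ _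

@[simp] theorem d_zero : (0 : Coch 𝒳 ℳ n).d = 0 := ext' fun _ g => dS_zero n g

@[simp] theorem d_sub (F E : Coch 𝒳 ℳ n) : (F - E).d = F.d - E.d := by
  rw [sub_eq_add_neg, d_add, d_neg, sub_eq_add_neg]

/-- the differential as an additive map -/
def dH (𝒳 : GSet 𝒢) (ℳ : Rep 𝒢) (n : ℕ) : Coch 𝒳 ℳ n →+ Coch 𝒳 ℳ (n + 1) where
  toFun := d
  map_zero' := d_zero
  map_add' := d_add

@[simp] theorem dH_apply (F : Coch 𝒳 ℳ n) : dH 𝒳 ℳ n F = F.d := rfl

theorem d_zsmul (c : ℤ) (F : Coch 𝒳 ℳ n) : (c • F).d = c • F.d := map_zsmul (dH 𝒳 ℳ n) c F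

/-- `F` is homogeneous of weight `w` -/
def IsWt (w : ℤ) (F : Coch 𝒳 ℳ n) : Prop :=
  ∀ {B : Type} [CommRing B] [FpA p B] (u : Bˣ) (x : 𝒳.obj B) (g : ℕ → 𝒢.obj B),
    ℳ.sc u (F.f (𝒳.sc u x) (fun k => 𝒢.sc u (g k))) = ((u ^ w : Bˣ) : B) • F.f x g

theorem IsWt.add {w : ℤ} {F E : Coch 𝒳 ℳ n} (hF : F.IsWt w) (hE : E.IsWt w) :
    (F + E).IsWt w := fun u x g => by
  rw [add_f, add_f, map_add, hF, hE, smul_add]

theorem IsWt.neg {w : ℤ} {F : Coch 𝒳 ℳ n} (hF : F.IsWt w) : (-F).IsWt w := fun u x g => by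
  rw [neg_f, neg_f, map_neg, hF, smul_neg]

theorem isWt_zero (w : ℤ) : (0 : Coch 𝒳 ℳ n).IsWt w := fun u x g => by
  rw [zero_f, zero_f, map_zero, smul_zero]

/-- the group of homogeneous cochains -/
def wt (𝒳 : GSet 𝒢) (ℳ : Rep 𝒢) (n : ℕ) (w : ℤ) : AddSubgroup (Coch 𝒳 ℳ n) where
  carrier := {F | F.IsWt w}
  zero_mem' := isWt_zero w
  add_mem' := IsWt.add
  neg_mem' := IsWt.neg

theorem mem_wt {w : ℤ} {F : Coch 𝒳 ℳ n} : F ∈ wt 𝒳 ℳ n w ↔ F.IsWt w := Iff.rfl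

theorem IsWt.sub {w : ℤ} {F E : Coch 𝒳 ℳ n} (hF : F.IsWt w) (hE : E.IsWt w) :
    (F - E).IsWt w := (wt 𝒳 ℳ n w).sub_mem hF hE

theorem IsWt.zsmul {w : ℤ} {F : Coch 𝒳 ℳ n} (hF : F.IsWt w) (c : ℤ) :
    (c • F).IsWt w := (wt 𝒳 ℳ n w).zsmul_mem hF c

theorem IsWt.d {w : ℤ} {F : Coch 𝒳 ℳ n} (hF : F.IsWt w) : F.d.IsWt w := fun u x g => by
  rw [d_f, d_f, dS_apply, dS_apply, map_sum, Finset.smul_sum]
  refine Finset.sum_congr rfl fun j _ => ?_
  rw [map_zsmul, smul_comm]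
  congr 1
  rw [← hF]
  congr 2
  funext k
  simp only [del]
  split_ifs <;> rfl

end Coch

/-- Every homogeneous cocycle of degree `n` and weight `w` is the coboundary of a homogeneous
cochain of the same weight (for `n = 0`: is zero). -/
def Van (𝒳 : GSet 𝒢) (ℳ : Rep 𝒢) (n : ℕ) (w : ℤ) : Prop :=
  ∀ F : Coch 𝒳 ℳ n, F.IsWt w → F.d = 0 →
    match n, F with
    | 0, F => F = 0
    | n + 1, F => ∃ E : Coch 𝒳 ℳ n, E.IsWt w ∧ E.d = F

theorem van_zero {𝒳 : GSet 𝒢} {ℳ : Rep 𝒢} {w : ℤ} :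
    Van 𝒳 ℳ 0 w ↔ ∀ F : Coch 𝒳 ℳ 0, F.IsWt w → F.d = 0 → F = 0 := Iff.rfl

theorem van_succ {𝒳 : GSet 𝒢} {ℳ : Rep 𝒢} {n : ℕ} {w : ℤ} :
    Van 𝒳 ℳ (n + 1) w ↔ ∀ F : Coch 𝒳 ℳ (n + 1), F.IsWt w → F.d = 0 →
      ∃ E : Coch 𝒳 ℳ n, E.IsWt w ∧ E.d = F := Iff.rfl

end Vale.Agent.P257.H93

end
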