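import Vale.Agent.P257.H919.Four
import Vale.Agent.P257.H93.Cup

/-! # P257 / H93 / Onto : multiplication by the class of a four term sequence is onto

`0 → 1 → ℳ → 𝒩 → 1[v] → 0` with explicit cochains `τ` (over `1`), `σ`, `b` with
`dτ = δσ`, `dσ = i b`: every cocycle is `c₀ ∪ b + de` if the cohomology of `ℳ`, `𝒩` vanishes. -/

noncomputable section

namespace Vale.Agent.P257.H93

open Vale.Agent.P251.F.F3 Vale.Agent.P257.H919

variable {p : ℕ} {𝒢 : Grp p} {𝒳 : GSet 𝒢} {ℳ 𝒩 : Rep 𝒢} {a b n s : ℕ} {v w : ℤ}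

namespace Coch

theorem ofShift_f {B : Type} [CommRing B] [FpA p B] (F : Coch 𝒳 (ℳ.shift v) n) (x : 𝒳.obj B)
    (g : ℕ → 𝒢.obj B) : F.ofShift.f x g = F.f x g := rfl

theorem isWt_ofShift {F : Coch 𝒳 (ℳ.shift v) n} (hF : F.IsWt w) : F.ofShift.IsWt (w - v) :=
  (isWt_toShift (F := F.ofShift)).1 hF

theorem d_ofShift (F : Coch 𝒳 (ℳ.shift v) n) : F.ofShift.d = F.d.ofShift := rfl

theorem push_cup (f : RHom ℳ 𝒩) (F : Coch 𝒳 (triv 𝒢) a) (E : Coch 𝒳 ℳ b) :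
    (F.cup E).push f = F.cup (E.push f) := ext' fun x g => by
  rw [push_f, cup_f, cup_f, map_smul]
  rfl

theorem zero_cup (E : Coch 𝒳 ℳ b) : (0 : Coch 𝒳 (triv 𝒢) a).cup E = 0 := ext' fun x g => by
  rw [cup_f, zero_f, zero_f]
  exact zero_smul _ _

theorem cup_zero (F : Coch 𝒳 (triv 𝒢) a) : F.cup (0 : Coch 𝒳 ℳ b) = 0 := ext' fun x g => by
  rw [cup_f, zero_f, zero_f, smul_zero]

theorem push_zsmul (f : RHom ℳ 𝒩) (k : ℤ) (F : Coch 𝒳 ℳ n) :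
    (k • F).push f = k • F.push f := ext' fun x g => by
  rw [push_f, zsmul_f, zsmul_f, map_zsmul, push_f]

theorem push_cast (f : RHom ℳ 𝒩) {m : ℕ} (h : n = m) (F : Coch 𝒳 ℳ n) :
    (F.cast h).push f = (F.push f).cast h := rfl

theorem cast_rfl (F : Coch 𝒳 ℳ n) (h : n = n) : F.cast h = F := rfl

/-- the Leibniz rule for a cocycle on the left -/
theorem d_cup_left {F : Coch 𝒳 (triv 𝒢) a} (hF : F.d = 0) (E : Coch 𝒳 ℳ b) : (F.cup E).d =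
    ((-1 : ℤ) ^ a) • (F.cup E.d).cast (by ring) := by
  rw [d_cup, hF, zero_cup]
  exact zero_add _

end Coch

open Coch

/-- **Multiplication on the right by `b` is onto.** -/
theorem onto (S : Four (triv 𝒢) ℳ 𝒩 ((triv 𝒢).shift v)) (τ : Coch 𝒳 𝒩 0) (σ : Coch 𝒳 ℳ 1)
    (b : Coch 𝒳 (triv 𝒢) 2)
    (hτ : ∀ {B : Type} [CommRing B] [FpA p B] (x : 𝒳.obj B) (g : ℕ → 𝒢.obj B),
      S.r.h (τ.f x g) = (1 : B))
    (hτσ : τ.d = σ.push S.δ) (hσb : σ.d = b.push S.i) (hτw : τ.IsWt v) (hσw : σ.IsWt v)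
    (hM : Van 𝒳 ℳ (s + 2) (w + v)) (hN : Van 𝒳 𝒩 (s + 1) (w + v))
    {c : Coch 𝒳 (triv 𝒢) (s + 2)} (hc : c.IsWt (w + v)) (hd : c.d = 0) :
    ∃ (c₀ : Coch 𝒳 (triv 𝒢) s) (e : Coch 𝒳 (triv 𝒢) (s + 1)), c₀.IsWt w ∧ e.IsWt (w + v) ∧
      c₀.d = 0 ∧ c = c₀.cup b + e.d := by
  rw [van_succ] at hM hN
  obtain ⟨E, hE, hdE⟩ := hM (c.push S.i) (hc.push _) (by rw [push_d, hd, push_zero])
  obtain ⟨F, hF, hdF⟩ := hN (E.push S.δ) (hE.push _) (by rw [push_d, hdE, S.push_push_i])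
  set c₀ : Coch 𝒳 (triv 𝒢) s := (F.push S.r).ofShift with hc₀
  have hc₀w : c₀.IsWt w := by
    have h : (F.push S.r).ofShift.IsWt (w + v - v) := isWt_ofShift (hF.push S.r)
    rwa [add_sub_cancel_right] at h
  have hc₀d : c₀.d = 0 := by
    rw [hc₀, d_ofShift, push_d, hdF, S.push_push_δ]
    rfl
  have h1 : (F - c₀.cup τ).push S.r = 0 := by
    rw [push_sub, push_cup, sub_eq_zero]
    refine ext' fun {B} _ _ x g => ?_
    rw [cup_f, push_f, push_f, hτ]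
    exact (mul_one (S.r.h (F.f x g) : B)).symm
  obtain ⟨H, hH, hHd⟩ := S.exists_δ (IsWt.sub hF (hc₀w.cup hτw)) h1
  have h2 : (E - H.d - ((-1 : ℤ) ^ s) • c₀.cup σ).push S.δ = 0 := by
    rw [push_sub, push_sub, ← push_d, hHd, d_sub, hdF, push_zsmul, push_cup, ← hτσ,
      d_cup_left hc₀d]
    change E.push S.δ - (E.push S.δ - ((-1 : ℤ) ^ s) • (c₀.cup τ.d)) -
      ((-1 : ℤ) ^ s) • c₀.cup τ.d = 0
    abel
  have h3 : (E - H.d - ((-1 : ℤ) ^ s) • c₀.cup σ).IsWt (w + v) :=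
    IsWt.sub (IsWt.sub hE hH.d) (IsWt.zsmul (hc₀w.cup hσw) _)
  obtain ⟨e, he, hed⟩ := S.exists_i h3 h2
  refine ⟨c₀, e, hc₀w, he, hc₀d, S.push_injective ?_⟩
  rw [push_add, ← push_d, hed, d_sub, d_sub, d_d, sub_zero, hdE, d_zsmul, d_cup_left hc₀d, hσb,
    push_cup, smul_smul, ← pow_add, ← two_mul, pow_mul]
  rw [show ((-1 : ℤ) ^ 2) = 1 by norm_num, one_pow, one_smul]
  change c.push S.i = c₀.cup (b.push S.i) + (c.push S.i - c₀.cup (b.push S.i))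
  abel

end Vale.Agent.P257.H93

end
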