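import Vale.Agent.P251.F.F3Prism

/-! # P257 / H93 / Seq : the alternating sum over faces, on functions of sequences

Simplices are sequences `ℕ → W` of which only finitely many entries are used
(see `Vale.Agent.P251.F.F3.del`, `prs`, `mix`, `prism_identity`). -/

namespace Vale.Agent.P257.H93

open Vale.Agent.P251.F.F3

variable {W M N : Type*} [AddCommGroup M] [AddCommGroup N]

/-- The differential of a function `X` of simplices of dimension `n`. -/
def dS (n : ℕ) (X : (ℕ → W) → M) (G : ℕ → W) : M :=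
  ∑ j ∈ Finset.range (n + 2), ((-1 : ℤ) ^ j) • X (del j G)

theorem dS_apply (n : ℕ) (X : (ℕ → W) → M) (G : ℕ → W) :
    dS n X G = ∑ j ∈ Finset.range (n + 2), ((-1 : ℤ) ^ j) • X (del j G) := rfl

theorem del_del_lt {i j : ℕ} (h : i ≤ j) (G : ℕ → W) :
    del i (del (j + 1) G) = del j (del i G) := by
  funext k
  simp only [del]
  split_ifs <;> first | rfl | omega

theorem dS_dS (n : ℕ) (X : (ℕ → W) → M) (G : ℕ → W) : dS (n + 1) (dS n X) G = 0 := by
  simp only [dS_apply, Finset.smul_sum, smul_smul, ← pow_add]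
  rw [← Finset.sum_product']
  set s := Finset.range (n + 1 + 2) ×ˢ Finset.range (n + 2) with hs
  refine Finset.sum_involution (fun ab _ => if ab.2 < ab.1 then (ab.2, ab.1 - 1)
    else (ab.2 + 1, ab.1)) ?_ ?_ ?_ ?_
  · rintro ⟨a, b⟩ -
    dsimp only
    split_ifs with h
    · obtain ⟨a, rfl⟩ : ∃ a', a = a' + 1 := ⟨a - 1, by omega⟩
      simp only [Nat.add_sub_cancel]
      rw [del_del_lt (show b ≤ a by omega), show a + 1 + b = (b + a) + 1 by ring, pow_succ]
      simp
    · dsimp only
      rw [del_del_lt (show a ≤ b by omega), show b + 1 + a = (a + b) + 1 by ring, pow_succ]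
      simp
  · rintro ⟨a, b⟩ - -
    dsimp only
    split_ifs with h <;> simp <;> omega
  · rintro ⟨a, b⟩ h
    simp only [hs, Finset.mem_product, Finset.mem_range] at h ⊢
    split_ifs with h' <;> simp only <;> omega
  · rintro ⟨a, b⟩ h
    rcases lt_or_ge b a with h1 | h1
    · simp only [h1, if_true, show ¬ (a - 1 < b) by omega, if_false, Prod.mk.injEq, and_true]
      omega
    · simp only [show ¬ (b < a) by omega, if_false, show a < b + 1 by omega, if_true,
        Nat.add_sub_cancel]

theorem dS_add (n : ℕ) (X Y : (ℕ → W) → M) (G : ℕ → W) :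
    dS n (fun G => X G + Y G) G = dS n X G + dS n Y G := by
  simp only [dS_apply, smul_add, Finset.sum_add_distrib]

theorem dS_sub (n : ℕ) (X Y : (ℕ → W) → M) (G : ℕ → W) :
    dS n (fun G => X G - Y G) G = dS n X G - dS n Y G := by
  simp only [dS_apply, smul_sub, Finset.sum_sub_distrib]

theorem dS_neg (n : ℕ) (X : (ℕ → W) → M) (G : ℕ → W) :
    dS n (fun G => - X G) G = - dS n X G := by
  simp only [dS_apply, smul_neg, Finset.sum_neg_distrib]

theorem dS_zero (n : ℕ) (G : ℕ → W) : dS n (fun _ => (0 : M)) G = 0 := by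
  simp [dS_apply]

theorem dS_map (n : ℕ) (f : M →+ N) (X : (ℕ → W) → M) (G : ℕ → W) :
    dS n (fun G => f (X G)) G = f (dS n X G) := by
  simp only [dS_apply, map_sum, map_zsmul]

theorem dS_sum {ι : Type*} (s : Finset ι) (n : ℕ) (X : ι → (ℕ → W) → M) (G : ℕ → W) :
    dS n (fun G => ∑ i ∈ s, X i G) G = ∑ i ∈ s, dS n (X i) G := by
  simp only [dS_apply, Finset.smul_sum]
  rw [Finset.sum_comm]

/-- The faces only use the entries `≤ n + 1`. -/
theorem dS_congr {n : ℕ} {X : (ℕ → W) → M} (hX : ∀ G G' : ℕ → W, (∀ k ≤ n, G k = G' k) → X G = X G')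
    {G G' : ℕ → W} (h : ∀ k ≤ n + 1, G k = G' k) : dS n X G = dS n X G' := by
  rw [dS_apply, dS_apply]
  refine Finset.sum_congr rfl fun j _ => ?_
  congr 1
  refine hX _ _ fun k hk => ?_
  simp only [del]
  split_ifs
  · exact h k (by omega)
  · exact h (k + 1) (by omega)

/-- The prism operator: `X` a function of `(n+1)`-simplices, the value is a function of pairs of
`n`-simplices. -/
def hS (n : ℕ) (X : (ℕ → W) → M) (V U : ℕ → W) : M :=
  ∑ i ∈ Finset.range (n + 1), ((-1 : ℤ) ^ i) • X (prs i V U)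

/-- The homotopy formula in positive degrees. -/
theorem hS_dS (n : ℕ) (X : (ℕ → W) → M) (V U : ℕ → W)
    (hX : ∀ G G' : ℕ → W, (∀ k ≤ n + 1, G k = G' k) → X G = X G') :
    hS (n + 1) (dS (n + 1) X) V U +
      ∑ j ∈ Finset.range (n + 2), ((-1 : ℤ) ^ j) • hS n X (del j V) (del j U) = X U - X V := by
  have h := prism_identity V U X (n + 1)
  have h1 : X (mix (n + 1 + 1) V U) = X V := hX _ _ fun k hk => by
    simp only [mix]; rw [if_pos (by omega)]
  rw [h1] at h
  rw [← h]
  congr 1
  · simp only [hS, dS_apply, Finset.smul_sum, smul_smul, ← pow_add]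
  · simp only [hS, Finset.smul_sum, smul_smul, ← pow_add]
    rw [Finset.sum_comm]
    refine Finset.sum_congr rfl fun i _ => Finset.sum_congr rfl fun j _ => ?_
    rw [add_comm]

/-- The homotopy formula in degree `0`. -/
theorem hS_dS_zero (X : (ℕ → W) → M) (V U : ℕ → W)
    (hX : ∀ G G' : ℕ → W, (∀ k ≤ 0, G k = G' k) → X G = X G') :
    hS 0 (dS 0 X) V U = X U - X V := by
  have h := prism_identity V U X 0
  have h1 : X (mix (0 + 1) V U) = X V := hX _ _ fun k hk => by
    simp only [mix]; rw [if_pos (by omega)]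
  rw [h1] at h
  rw [← h]
  simp [hS, dS_apply]

end Vale.Agent.P257.H93
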