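import Vale.Agent.P257.H93.Nat

/-! # P257 / H93 / Shap : the prism homotopy and Shapiro's lemma -/

noncomputable section

namespace Vale.Agent.P257.H93

open Vale.Agent.P251.F.F3

variable {p : ℕ} {𝒢 : Grp p}

/-- natural maps `l : 𝒳 → 𝒢` (no equivariance) -/
structure NMap (𝒳 : GSet 𝒢) where
  l : ∀ {B : Type} [CommRing B] [FpA p B], 𝒳.obj B → 𝒢.obj B
  nat : ∀ {B C : Type} [CommRing B] [FpA p B] [CommRing C] [FpA p C] (φ : B →+* C)
    (x : 𝒳.obj B), l (𝒳.map φ x) = 𝒢.map φ (l x)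
  scal : ∀ {B : Type} [CommRing B] [FpA p B] (u : Bˣ) (x : 𝒳.obj B),
    l (𝒳.sc u x) = 𝒢.sc u (l x)

namespace NMap

variable {𝒳 : GSet 𝒢} (l : NMap 𝒳)

/-- `U k = l (g_k x) g_k` -/
def U {B : Type} [CommRing B] [FpA p B] (x : 𝒳.obj B) (g : ℕ → 𝒢.obj B) : ℕ → 𝒢.obj B :=
  fun k => l.l (g k • x) * g k

theorem U_del {B : Type} [CommRing B] [FpA p B] (x : 𝒳.obj B) (g : ℕ → 𝒢.obj B) (j : ℕ) :
    l.U x (del j g) = del j (l.U x g) := by
  funext k
  simp only [del, U]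
  split_ifs <;> rfl

theorem U_map {B C : Type} [CommRing B] [FpA p B] [CommRing C] [FpA p C] (φ : B →+* C)
    (x : 𝒳.obj B) (g : ℕ → 𝒢.obj B) :
    l.U (𝒳.map φ x) (fun k => 𝒢.map φ (g k)) = fun k => 𝒢.map φ (l.U x g k) := by
  funext k
  simp only [U]
  rw [← 𝒳.map_smul, l.nat, map_mul]

theorem U_smul {B : Type} [CommRing B] [FpA p B] (h : 𝒢.obj B) (x : 𝒳.obj B)
    (g : ℕ → 𝒢.obj B) :
    l.U (h • x) (fun k => g k * h⁻¹) = fun k => l.U x g k * h⁻¹ := by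
  funext k
  simp only [U]
  rw [smul_smul, inv_mul_cancel_right, mul_assoc]

theorem U_sc {B : Type} [CommRing B] [FpA p B] (u : Bˣ) (x : 𝒳.obj B)
    (g : ℕ → 𝒢.obj B) :
    l.U (𝒳.sc u x) (fun k => 𝒢.sc u (g k)) = fun k => 𝒢.sc u (l.U x g k) := by
  funext k
  simp only [U]
  rw [← 𝒳.sc_smul, l.scal, map_mul]

end NMap

namespace Coch

variable {𝒳 : GSet 𝒢} {ℳ : Rep 𝒢} {n : ℕ}

/-- the chain endomorphism `F ↦ F(x; l(g_k x) g_k)` -/
def rOp (l : NMap 𝒳) (F : Coch 𝒳 ℳ n) : Coch 𝒳 ℳ n where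
  f x g := F.f x (l.U x g)
  nat φ x g := by rw [l.U_map, F.nat]
  loc x g g' h := F.loc x _ _ fun k hk => by simp only [NMap.U]; rw [h k hk]
  eqv h x g := by rw [l.U_smul, F.eqv]

theorem rOp_f {B : Type} [CommRing B] [FpA p B] (l : NMap 𝒳) (F : Coch 𝒳 ℳ n) (x : 𝒳.obj B)
    (g : ℕ → 𝒢.obj B) : (F.rOp l).f x g = F.f x (l.U x g) := rfl

/-- the homotopy -/
def hOp (l : NMap 𝒳) (F : Coch 𝒳 ℳ (n + 1)) : Coch 𝒳 ℳ n where
  f x g := hS n (F.f x) g (l.U x g)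
  nat φ x g := by
    simp only [hS, map_sum, map_zsmul]
    refine Finset.sum_congr rfl fun i _ => ?_
    rw [← F.nat, l.U_map]
    congr 2
    funext k
    simp only [prs]
    split_ifs <;> rfl
  loc x g g' h := by
    simp only [hS]
    refine Finset.sum_congr rfl fun i hi => ?_
    rw [Finset.mem_range] at hi
    congr 1
    refine F.loc x _ _ fun k hk => ?_
    simp only [prs, NMap.U]
    split_ifs with h1
    · exact h k (by omega)
    · rw [h (k - 1) (by omega)]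
  eqv h x g := by
    simp only [hS, Finset.smul_sum]
    refine Finset.sum_congr rfl fun i _ => ?_
    rw [smul_comm h, ← F.eqv, l.U_smul]
    congr 2
    funext k
    simp only [prs]
    split_ifs <;> rfl

theorem hOp_f {B : Type} [CommRing B] [FpA p B] (l : NMap 𝒳) (F : Coch 𝒳 ℳ (n + 1))
    (x : 𝒳.obj B) (g : ℕ → 𝒢.obj B) : (F.hOp l).f x g = hS n (F.f x) g (l.U x g) := rfl

theorem rOp_d (l : NMap 𝒳) (F : Coch 𝒳 ℳ n) : (F.rOp l).d = F.d.rOp l :=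
  ext' fun x g => by
    simp only [d_f, rOp_f, dS_apply, l.U_del]

theorem hOp_d (l : NMap 𝒳) (F : Coch 𝒳 ℳ (n + 1)) :
    F.d.hOp l + (F.hOp l).d = F.rOp l - F := ext' fun x g => by
  rw [add_f, sub_f, hOp_f, d_f, rOp_f, ← hS_dS n (F.f x) g (l.U x g) (F.loc x)]
  congr 1
  simp only [dS_apply, hOp_f, l.U_del]

theorem hOp_d_zero (l : NMap 𝒳) (F : Coch 𝒳 ℳ 0) : F.d.hOp l = F.rOp l - F :=
  ext' fun x g => by
  rw [sub_f, hOp_f, rOp_f, ← hS_dS_zero (F.f x) g (l.U x g) (F.loc x)]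
  rfl

theorem IsWt.rOp {w : ℤ} {F : Coch 𝒳 ℳ n} (hF : F.IsWt w) (l : NMap 𝒳) : (F.rOp l).IsWt w :=
  fun u x g => by rw [rOp_f, rOp_f, l.U_sc, hF]

theorem IsWt.hOp {w : ℤ} {F : Coch 𝒳 ℳ (n + 1)} (hF : F.IsWt w) (l : NMap 𝒳) :
    (F.hOp l).IsWt w := fun u x g => by
  rw [hOp_f, hOp_f, hS, hS, map_sum, Finset.smul_sum]
  refine Finset.sum_congr rfl fun i _ => ?_
  rw [map_zsmul, smul_comm]
  congr 1
  rw [← hF, l.U_sc]
  congr 2
  funext k
  simp only [prs]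
  split_ifs <;> rfl

end Coch

/-! ### Shapiro's lemma -/

/-- Data for Shapiro's lemma: a functor `𝒳` with `𝒢`-action, a subgroup `𝒦 → 𝒢` (the stabilizer
of a base point `x₀`) and a natural section `s` of `g ↦ g x₀`. -/
structure Shap (𝒢 : Grp p) (𝒳 : GSet 𝒢) (𝒦 : Grp p) where
  inc : ∀ {B : Type} [CommRing B] [FpA p B], 𝒦.obj B →* 𝒢.obj B
  inc_map : ∀ {B C : Type} [CommRing B] [FpA p B] [CommRing C] [FpA p C] (φ : B →+* C)
    (k : 𝒦.obj B), inc (𝒦.map φ k) = 𝒢.map φ (inc k)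
  inc_sc : ∀ {B : Type} [CommRing B] [FpA p B] (u : Bˣ) (k : 𝒦.obj B),
    inc (𝒦.sc u k) = 𝒢.sc u (inc k)
  inc_inj : ∀ {B : Type} [CommRing B] [FpA p B], Function.Injective (inc (B := B))
  x₀ : ∀ {B : Type} [CommRing B] [FpA p B], 𝒳.obj B
  x₀_map : ∀ {B C : Type} [CommRing B] [FpA p B] [CommRing C] [FpA p C] (φ : B →+* C),
    𝒳.map φ x₀ = x₀
  x₀_sc : ∀ {B : Type} [CommRing B] [FpA p B] (u : Bˣ), 𝒳.sc u (x₀ (B := B)) = x₀
  stab : ∀ {B : Type} [CommRing B] [FpA p B] (g : 𝒢.obj B),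
    g • x₀ (B := B) = x₀ (B := B) ↔ ∃ k, inc k = g
  s : ∀ {B : Type} [CommRing B] [FpA p B], 𝒳.obj B → 𝒢.obj B
  s_map : ∀ {B C : Type} [CommRing B] [FpA p B] [CommRing C] [FpA p C] (φ : B →+* C)
    (x : 𝒳.obj B), s (𝒳.map φ x) = 𝒢.map φ (s x)
  s_sc : ∀ {B : Type} [CommRing B] [FpA p B] (u : Bˣ) (x : 𝒳.obj B),
    s (𝒳.sc u x) = 𝒢.sc u (s x)
  s_smul : ∀ {B : Type} [CommRing B] [FpA p B] (x : 𝒳.obj B), s x • x₀ (B := B) = x
  s_x₀ : ∀ {B : Type} [CommRing B] [FpA p B], s (x₀ (B := B)) = 1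

/-- restriction of representations along `𝒦 → 𝒢` -/
structure ResRep {𝒢 𝒦 : Grp p} (𝒳 : GSet 𝒢) (S : Shap 𝒢 𝒳 𝒦) (ℳ : Rep 𝒢) (ℳ' : Rep 𝒦) where
  e : ∀ {B : Type} [CommRing B] [FpA p B], ℳ.obj B ≃ₗ[B] ℳ'.obj B
  e_map : ∀ {B C : Type} [CommRing B] [FpA p B] [CommRing C] [FpA p C] (φ : B →+* C)
    (m : ℳ.obj B), e (ℳ.map φ m) = ℳ'.map φ (e m)
  e_sc : ∀ {B : Type} [CommRing B] [FpA p B] (u : Bˣ) (m : ℳ.obj B), e (ℳ.sc u m) = ℳ'.sc u (e m)
  e_smul : ∀ {B : Type} [CommRing B] [FpA p B] (k : 𝒦.obj B) (m : ℳ.obj B),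
    e (S.inc k • m) = k • e m

namespace Shap

variable {𝒳 : GSet 𝒢} {𝒦 : Grp p} (S : Shap 𝒢 𝒳 𝒦)

/-- the natural map `x ↦ s(x)⁻¹` -/
def nmap : NMap 𝒳 where
  l x := (S.s x)⁻¹
  nat φ x := by rw [S.s_map, map_inv]
  scal u x := by rw [S.s_sc, map_inv]

theorem exists_k {B : Type} [CommRing B] [FpA p B] (x : 𝒳.obj B) (g : 𝒢.obj B) :
    ∃ k : 𝒦.obj B, S.inc k = (S.s (g • x))⁻¹ * g * S.s x := by
  rw [← S.stab, mul_smul, mul_smul, S.s_smul, inv_smul_eq_iff, S.s_smul]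

/-- `s(g x)⁻¹ g s(x)` as an element of `𝒦` -/
def k {B : Type} [CommRing B] [FpA p B] (x : 𝒳.obj B) (g : 𝒢.obj B) : 𝒦.obj B :=
  (S.exists_k x g).choose

theorem inc_k {B : Type} [CommRing B] [FpA p B] (x : 𝒳.obj B) (g : 𝒢.obj B) :
    S.inc (S.k x g) = (S.s (g • x))⁻¹ * g * S.s x := (S.exists_k x g).choose_spec

theorem k_map {B C : Type} [CommRing B] [FpA p B] [CommRing C] [FpA p C] (φ : B →+* C)
    (x : 𝒳.obj B) (g : 𝒢.obj B) : S.k (𝒳.map φ x) (𝒢.map φ g) = 𝒦.map φ (S.k x g) := by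
  apply S.inc_inj
  rw [S.inc_k, S.inc_map, S.inc_k, ← 𝒳.map_smul, S.s_map, S.s_map, map_mul, map_mul, map_inv]

theorem k_sc {B : Type} [CommRing B] [FpA p B] (u : Bˣ)
    (x : 𝒳.obj B) (g : 𝒢.obj B) : S.k (𝒳.sc u x) (𝒢.sc u g) = 𝒦.sc u (S.k x g) := by
  apply S.inc_inj
  rw [S.inc_k, S.inc_sc, S.inc_k, ← 𝒳.sc_smul, S.s_sc, S.s_sc, map_mul, map_mul, map_inv]

theorem k_smul {B : Type} [CommRing B] [FpA p B] (h : 𝒢.obj B)
    (x : 𝒳.obj B) (g : 𝒢.obj B) : S.k (h • x) (g * h⁻¹) = S.k x g * (S.k x h)⁻¹ := by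
  apply S.inc_inj
  rw [S.inc_k, map_mul, map_inv, S.inc_k, S.inc_k, smul_smul, inv_mul_cancel_right]
  group

theorem k_inc {B : Type} [CommRing B] [FpA p B] (k : 𝒦.obj B) : S.k S.x₀ (S.inc k) = k := by
  apply S.inc_inj
  rw [S.inc_k, (S.stab (S.inc k)).2 ⟨k, rfl⟩, S.s_x₀, inv_one, one_mul, mul_one]

variable {S} {ℳ : Rep 𝒢} {ℳ' : Rep 𝒦} {n : ℕ}

/-- restriction to the base point -/
def res (R : ResRep 𝒳 S ℳ ℳ') (F : Coch 𝒳 ℳ n) : Coch (pt 𝒦) ℳ' n where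
  f _ k := R.e (F.f S.x₀ fun i => S.inc (k i))
  nat φ _ k := by
    rw [← R.e_map, ← F.nat, S.x₀_map]
    congr 2
    funext i
    exact S.inc_map φ (k i)
  loc _ k k' h := by
    congr 1
    exact F.loc _ _ _ fun i hi => by rw [h i hi]
  eqv h _ k := by
    rw [← R.e_smul, ← F.eqv, (S.stab (S.inc h)).2 ⟨h, rfl⟩]
    congr 2
    funext i
    rw [map_mul, map_inv]

/-- extension from the base point -/
def ext (R : ResRep 𝒳 S ℳ ℳ') (E : Coch (pt 𝒦) ℳ' n) : Coch 𝒳 ℳ n where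
  f x g := S.s x • R.e.symm (E.f () fun i => S.k x (g i))
  nat φ x g := by
    rw [S.s_map, ℳ.map_smul]
    congr 1
    apply R.e.injective
    rw [R.e_map, LinearEquiv.apply_symm_apply, LinearEquiv.apply_symm_apply, ← E.nat]
    congr 1
    funext i
    exact S.k_map φ x (g i)
  loc x g g' h := by
    congr 2
    exact E.loc _ _ _ fun i hi => by rw [h i hi]
  eqv h x g := by
    have h1 : (fun i => S.k (h • x) (g i * h⁻¹)) = fun i => S.k x (g i) * (S.k x h)⁻¹ := by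
      funext i
      exact S.k_smul h x (g i)
    rw [h1, E.eqv]
    have h2 : R.e.symm (S.k x h • E.f () fun i => S.k x (g i)) =
        S.inc (S.k x h) • R.e.symm (E.f () fun i => S.k x (g i)) := by
      apply R.e.injective
      rw [R.e_smul, LinearEquiv.apply_symm_apply, LinearEquiv.apply_symm_apply]
    rw [h2, S.inc_k, smul_smul, smul_smul]
    congr 1
    group

variable (R : ResRep 𝒳 S ℳ ℳ')

theorem res_f {B : Type} [CommRing B] [FpA p B] (F : Coch 𝒳 ℳ n) (y : Unit) (k : ℕ → 𝒦.obj B) :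
    (res R F).f y k = R.e (F.f S.x₀ fun i => S.inc (k i)) := rfl

theorem ext_f {B : Type} [CommRing B] [FpA p B] (E : Coch (pt 𝒦) ℳ' n) (x : 𝒳.obj B)
    (g : ℕ → 𝒢.obj B) :
    (ext R E).f x g = S.s x • R.e.symm (E.f () fun i => S.k x (g i)) := rfl

theorem res_ext (E : Coch (pt 𝒦) ℳ' n) : res R (ext R E) = E := Coch.ext' fun y k => by
  rw [res_f, ext_f, S.s_x₀, one_smul, LinearEquiv.apply_symm_apply]
  simp only [S.k_inc]

theorem ext_res (F : Coch 𝒳 ℳ n) : ext R (res R F) = F.rOp S.nmap := Coch.ext' fun x g => by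
  rw [ext_f, res_f, LinearEquiv.symm_apply_apply, ← F.eqv, S.s_smul, Coch.rOp_f]
  congr 1
  funext i
  rw [S.inc_k, mul_inv_cancel_right]
  rfl

theorem res_d (F : Coch 𝒳 ℳ n) : res R F.d = (res R F).d := Coch.ext' fun y k => by
  rw [res_f, Coch.d_f, Coch.d_f, dS_apply, dS_apply, map_sum]
  refine Finset.sum_congr rfl fun j _ => ?_
  rw [map_zsmul, res_f]
  congr 3
  funext i
  simp only [del]
  split_ifs <;> rfl

theorem ext_d (E : Coch (pt 𝒦) ℳ' n) : ext R E.d = (ext R E).d := Coch.ext' fun x g => by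
  rw [ext_f, Coch.d_f, Coch.d_f, dS_apply, dS_apply, map_sum, Finset.smul_sum]
  refine Finset.sum_congr rfl fun j _ => ?_
  rw [map_zsmul, smul_comm, ext_f]
  congr 4
  funext i
  simp only [del]
  split_ifs <;> rfl

theorem res_add (F E : Coch 𝒳 ℳ n) : res R (F + E) = res R F + res R E :=
  Coch.ext' fun y k => by
  rw [res_f, Coch.add_f, Coch.add_f, map_add]; rfl

theorem ext_add (F E : Coch (pt 𝒦) ℳ' n) : ext R (F + E) = ext R F + ext R E :=
  Coch.ext' fun x g => by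
  rw [ext_f, Coch.add_f, Coch.add_f, map_add, smul_add]; rfl

theorem isWt_res {w : ℤ} {F : Coch 𝒳 ℳ n} (hF : F.IsWt w) : (res R F).IsWt w :=
  fun u y k => by
  rw [res_f, res_f, ← R.e_sc, ← LinearEquiv.map_smul, ← hF, S.x₀_sc]
  congr 3
  funext i
  exact S.inc_sc u (k i)

theorem isWt_ext {w : ℤ} {E : Coch (pt 𝒦) ℳ' n} (hE : E.IsWt w) : (ext R E).IsWt w :=
  fun u x g => by
  rw [ext_f, ext_f, S.s_sc, ℳ.sc_smul, ← smul_comm (S.s x)]
  congr 1
  apply R.e.injective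
  rw [R.e_sc, LinearEquiv.apply_symm_apply, map_smul, LinearEquiv.apply_symm_apply, ← hE]
  congr 2
  funext i
  exact S.k_sc u x (g i)

include R in
/-- **Shapiro's lemma** (vanishing). -/
theorem van_iff {w : ℤ} : Van 𝒳 ℳ n w ↔ Van (pt 𝒦) ℳ' n w := by
  rcases n with _ | n
  · rw [van_zero, van_zero]
    constructor
    · intro h E hE hd
      have := h (ext R E) (isWt_ext R hE) (by
        rw [← ext_d, hd]
        exact Coch.ext' fun x g => by rw [ext_f]; simp)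
      rw [← res_ext R E, this]
      exact Coch.ext' fun x g => by rw [res_f]; simp
    · intro h F hF hd
      have h1 := h (res R F) (isWt_res R hF) (by
        rw [← res_d, hd]
        exact Coch.ext' fun x g => by rw [res_f]; simp)
      have h2 := Coch.hOp_d_zero S.nmap F
      rw [hd, ← ext_res R F, h1] at h2
      have h3 : ext R (0 : Coch (pt 𝒦) ℳ' 0) = 0 := Coch.ext' fun x g => by rw [ext_f]; simp
      have h4 : (0 : Coch 𝒳 ℳ 1).hOp S.nmap = 0 := Coch.ext' fun x g => by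
        rw [Coch.hOp_f]; simp [hS]
      rw [h3, h4, zero_sub, eq_comm, neg_eq_zero] at h2
      exact h2
  · rw [van_succ, van_succ]
    constructor
    · intro h E hE hd
      obtain ⟨E', hE', hd'⟩ := h (ext R E) (isWt_ext R hE) (by
        rw [← ext_d, hd]
        exact Coch.ext' fun x g => by rw [ext_f]; simp)
      refine ⟨res R E', isWt_res R hE', ?_⟩
      rw [← res_d, hd', res_ext]
    · intro h F hF hd
      obtain ⟨E', hE', hd'⟩ := h (res R F) (isWt_res R hF) (by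
        rw [← res_d, hd]
        exact Coch.ext' fun x g => by rw [res_f]; simp)
      have h2 := Coch.hOp_d S.nmap F
      have h4 : (0 : Coch 𝒳 ℳ (n + 2)).hOp S.nmap = 0 := Coch.ext' fun x g => by
        rw [Coch.hOp_f]; simp [hS]
      rw [hd, h4, zero_add, ← ext_res R F, ← hd', ext_d] at h2
      refine ⟨ext R E' - F.hOp S.nmap, Coch.IsWt.sub (isWt_ext R hE') (Coch.IsWt.hOp hF _), ?_⟩
      rw [Coch.d_sub, h2]
      abel

end Shap

end Vale.Agent.P257.H93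

end
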