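import Vale.Agent.P257.H93.FP

/-! # P257 / H93 / YonI : the cobar complex of `Laz / I_∞` and additive chains -/

noncomputable section

namespace Vale.Agent.P257.H93

open Vale.Agent.P251.F Vale.Agent.P251.F.F3 Vale.Agent.P217 Vale.Agent.P257.H314

variable {p : ℕ} [hp : Fact p.Prime]

section act

variable {B C : Type} [CommRing B] [CommRing C]

/-- the action of strict series on the points -/
@[irreducible] def actI (g : strict B) (x : QIinf p →+* B) : QIinf p →+* B :=
  LawRing.act (g : InvSeries B) x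

/-- the action of scalings on the points -/
@[irreducible] def scI (u : Bˣ) (x : QIinf p →+* B) : QIinf p →+* B :=
  LawRing.act (InvSeries.lin u)⁻¹ x

theorem actI_eq (g : strict B) (x : QIinf p →+* B) :
    actI g x = LawRing.act (g : InvSeries B) x := by rw [actI]

theorem scI_eq (u : Bˣ) (x : QIinf p →+* B) :
    scI u x = LawRing.act (InvSeries.lin u)⁻¹ x := by rw [scI]

theorem actI_one (x : QIinf p →+* B) : actI 1 x = x := by
  rw [actI_eq, Subgroup.coe_one, LawRing.act_one]

theorem actI_mul (g h : strict B) (x : QIinf p →+* B) : actI (g * h) x = actI g (actI h x) := by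
  rw [actI_eq, actI_eq, actI_eq, Subgroup.coe_mul, LawRing.act_mul]

theorem comp_actI (φ : B →+* C) (g : strict B) (x : QIinf p →+* B) :
    φ.comp (actI g x) = actI (smapH φ g) (φ.comp x) := by
  rw [actI_eq, actI_eq, LawRing.comp_act, val_smapH]

theorem scI_actI (u : Bˣ) (g : strict B) (x : QIinf p →+* B) :
    scI u (actI g x) = actI (scS u g) (scI u x) := by
  rw [scI_eq, scI_eq, actI_eq, actI_eq, ← LawRing.act_mul, ← LawRing.act_mul, val_scS,
    mul_inv_cancel_right]

theorem comp_scI (φ : B →+* C) (u : Bˣ) (x : QIinf p →+* B) :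
    φ.comp (scI u x) = scI (Units.map (φ : B →* C) u) (φ.comp x) := by
  rw [scI_eq, scI_eq, LawRing.comp_act, map_inv, InvSeries.map_lin]

end act

/-- the functor of points of `Laz / I_∞` -/
@[reducible] def XI (p : ℕ) [Fact p.Prime] : GSet (strictG p) where
  obj B _ _ := QIinf p →+* B
  act B _ _ := { smul := fun g x => actI g x
                 one_smul := fun x => actI_one x
                 mul_smul := fun g h x => actI_mul g h x }
  map φ x := φ.comp x
  map_smul φ g x := comp_actI φ g x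
  sc u x := scI u x
  sc_smul u g x := scI_actI u g x
  map_sc φ u x := comp_scI φ u x

/-- cochains from cobar functions -/
def ofI {n : ℕ} (z : Cob (QIinf p) n) : Coch (XI p) (triv (strictG p)) n where
  f x g := Cob.ev (mkC x n g) z
  nat φ x g := by
    change Cob.ev (mkC (φ.comp x) n (fun k => smapH φ (g k))) z = φ (Cob.ev (mkC x n g) z)
    rw [← map_mkC, Cob.ev_map]
  loc x g g' h := by rw [mkC_congr x h]
  eqv h x g := by
    change Cob.ev (mkC (actI h x) n (fun k => g k * h⁻¹)) z = Cob.ev (mkC x n g) z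
    rw [actI_eq, mkC_smul]

theorem ofI_f {n : ℕ} (z : Cob (QIinf p) n) {B : Type} [CommRing B] [FpA p B]
    (x : (XI p).obj B) (g : ℕ → (strictG p).obj B) :
    (ofI z).f x g = Cob.ev (mkC x n g) z := rfl

instance fpA_cob (n : ℕ) : FpA p (Cob (QIinf p) n) :=
  ⟨QIinf.cast_p (MvPolynomial.C : QIinf p →+* Cob (QIinf p) n)⟩

/-- the universal chain of strict series -/
def gV (p n : ℕ) [Fact p.Prime] : ℕ → strict (Cob (QIinf p) n) :=
  fun k => if h : k < n + 1 then ⟨(Cob.univ (QIinf p) n).g ⟨k, h⟩, (Cob.univ (QIinf p) n).strict _⟩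
    else 1

theorem mkC_gV (n : ℕ) : mkC (MvPolynomial.C : QIinf p →+* Cob (QIinf p) n) n (gV p n) =
    Cob.univ (QIinf p) n := mkC_of_chain (Cob.univ (QIinf p) n)

theorem map_gV {B : Type} [CommRing B] {n : ℕ} (c : Chain (QIinf p) n B) {k : ℕ}
    (hk : k < n + 1) : smapH (Cob.ev c) (gV p n k) = ⟨c.g ⟨k, hk⟩, c.strict _⟩ := by
  ext1
  rw [val_smapH, gV, dif_pos hk]
  change InvSeries.map (Cob.ev c) ((Cob.univ (QIinf p) n).g ⟨k, hk⟩) = c.g ⟨k, hk⟩
  rw [← Chain.map_g, Cob.univ_map_ev]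

/-- cobar functions from cochains -/
def toI {n : ℕ} (F : Coch (XI p) (triv (strictG p)) n) : Cob (QIinf p) n :=
  F.f (B := Cob (QIinf p) n) (MvPolynomial.C : QIinf p →+* Cob (QIinf p) n) (gV p n)

theorem toI_ofI {n : ℕ} (z : Cob (QIinf p) n) : toI (ofI z) = z := by
  rw [toI, ofI_f, mkC_gV, Cob.ev_univ]

theorem ev_toI {n : ℕ} (F : Coch (XI p) (triv (strictG p)) n) {B : Type} [CommRing B] [FpA p B]
    (x : QIinf p →+* B) (g : ℕ → strict B) : Cob.ev (mkC x n g) (toI F) = F.f (B := B) x g := by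
  have h1 := F.nat (Cob.ev (mkC x n g)) (MvPolynomial.C : QIinf p →+* Cob (QIinf p) n) (gV p n)
  change _ = Cob.ev (mkC x n g) (toI F) at h1
  have h2 := F.eqv (g 0) x g
  change _ = F.f x g at h2
  rw [← h1, ← h2]
  have h3 : (Cob.ev (mkC x n g)).comp (MvPolynomial.C : QIinf p →+* Cob (QIinf p) n) =
      LawRing.act (g 0 : InvSeries B) x := by
    ext a
    simp
  change F.f ((Cob.ev (mkC x n g)).comp (MvPolynomial.C : QIinf p →+* Cob (QIinf p) n)) _ =
    F.f (actI (g 0) x) _
  rw [h3, actI_eq]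
  refine F.loc _ _ _ fun k hk => ?_
  exact map_gV (mkC x n g) (Nat.lt_succ_of_le hk)

theorem ofI_toI {n : ℕ} (F : Coch (XI p) (triv (strictG p)) n) : ofI (toI F) = F :=
  Coch.ext' fun x g => ev_toI F x g

/-- The Yoneda isomorphism. -/
def yonI (n : ℕ) : Cob (QIinf p) n ≃+ Coch (XI p) (triv (strictG p)) n where
  toFun := ofI
  invFun := toI
  left_inv := toI_ofI
  right_inv := ofI_toI
  map_add' x y := Coch.ext' fun x' g => map_add (Cob.ev (mkC x' n g)) x y

@[simp] theorem yonI_apply {n : ℕ} (z : Cob (QIinf p) n) : yonI n z = ofI z := rfl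

theorem ofI_injective {n : ℕ} :
    Function.Injective (ofI : Cob (QIinf p) n → _) := (yonI (p := p) n).injective

theorem ofI_add {n : ℕ} (x y : Cob (QIinf p) n) : ofI (x + y) = ofI x + ofI y :=
  map_add (yonI n) x y
theorem ofI_sub {n : ℕ} (x y : Cob (QIinf p) n) : ofI (x - y) = ofI x - ofI y :=
  map_sub (yonI n) x y
theorem ofI_zero {n : ℕ} : ofI (0 : Cob (QIinf p) n) = 0 := map_zero (yonI n)

theorem ofI_d {n : ℕ} (z : Cob (QIinf p) n) : ofI (Cob.d n z) = (ofI z).d :=
  Coch.ext' fun x g => ev_d_mkC x g z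

theorem ofI_cup {a b : ℕ} (x : Cob (QIinf p) a) (y : Cob (QIinf p) b) :
    ofI (Cob.cup x y) = (ofI x).cup (ofI y) := Coch.ext' fun x' g => by
  rw [ofI_f, Cob.ev_cup, res_mkC_front, res_mkC_back]
  rfl

theorem isWt_ofI {n : ℕ} {w : ℤ} {z : Cob (QIinf p) n} : (ofI z).IsWt w ↔ Cob.IsWt w z := by
  constructor
  · intro h B _ c u
    have : FpA p B := ⟨QIinf.cast_p c.pt⟩
    rw [← mkC_of_chain c, mkC_scale, ← scI_eq]
    exact h u c.pt _
  · intro h B _ _ u x g
    change Cob.ev (mkC (scI u x) n (fun k => scS u (g k))) z =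
      ((u ^ w : Bˣ) : B) * Cob.ev (mkC x n g) z
    rw [scI_eq, ← mkC_scale, h]

/-! ### the Shapiro data -/

/-- the logarithm of a point of `Laz / I_∞` -/
def sI {B : Type} [CommRing B] [hB : FpA p B] (x : QIinf p →+* B) : strict B :=
  ⟨H604.lg hB.cast ((LawRing.law (N := QIinf p)).map x) (QIinf.vv_law x), H604.lg_mem _ _ _⟩

theorem lg_congr {B : Type} [CommRing B] (hB : (p : B) = 0) {F G : Law B} (h : F = G)
    (hF : ∀ k, vv p k F = 0) (hG : ∀ k, vv p k G = 0) : H604.lg hB F hF = H604.lg hB G hG := by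
  subst h
  rfl

theorem val_sI {B : Type} [CommRing B] [hB : FpA p B] (x : QIinf p →+* B) :
    (sI x : InvSeries B) =
      H604.lg hB.cast ((LawRing.law (N := QIinf p)).map x) (QIinf.vv_law x) := rfl

theorem sI_comp {B C : Type} [CommRing B] [hB : FpA p B] [CommRing C] [hC : FpA p C]
    (φ : B →+* C) (x : QIinf p →+* B) : sI (φ.comp x) = smapH φ (sI x) := by
  ext1
  have h : ((LawRing.law (N := QIinf p)).map x).map φ = (LawRing.law (N := QIinf p)).map (φ.comp x) :=
    Law.map_map _ _ _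
  rw [val_smapH, val_sI, val_sI, H604.map_lg φ hB.cast hC.cast _ (QIinf.vv_law x) (by
    intro k
    rw [h]
    exact QIinf.vv_law _ k)]
  exact lg_congr _ h.symm _ _

theorem sI_scI {B : Type} [CommRing B] [hB : FpA p B] (u : Bˣ) (x : QIinf p →+* B) :
    sI (scI u x) = scS u (sI x) := by
  ext1
  have h : (LawRing.law (N := QIinf p)).map (scI u x) =
      (InvSeries.lin u)⁻¹ • (LawRing.law (N := QIinf p)).map x := by
    rw [scI_eq, QIinf.act_eq]
  rw [val_scS, val_sI, val_sI, ← H604.lg_scale u hB.cast _ (QIinf.vv_law x) (by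
    intro k
    rw [← h]
    exact QIinf.vv_law _ k)]
  exact lg_congr _ h _ _

theorem actI_sI {B : Type} [CommRing B] [hB : FpA p B] (x : QIinf p →+* B) :
    actI (sI x) (aPt p B) = x := by
  apply QIinf.hom_ext
  rw [actI_eq, QIinf.act_eq, law_map_aPt, val_sI, H604.lg_smul]

theorem sI_aPt {B : Type} [CommRing B] [hB : FpA p B] : sI (aPt p B) = 1 := by
  ext1
  rw [val_sI, Subgroup.coe_one, ← H604.lg_addLaw hB.cast (vv_addLaw hB.cast)]
  exact lg_congr _ law_map_aPt _ _

theorem actI_aPt_iff {B : Type} [CommRing B] [hB : FpA p B] (g : strict B) :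
    actI g (aPt p B) = aPt p B ↔ g ∈ addS B := by
  rw [mem_addS, actI_eq]
  constructor
  · intro h
    have h1 := QIinf.act_eq (g : InvSeries B) (aPt p B)
    rw [h, law_map_aPt] at h1
    exact h1.symm
  · intro h
    exact act_aPt h

/-- the data for Shapiro's lemma -/
@[reducible] def shapI (p : ℕ) [Fact p.Prime] : Shap (strictG p) (XI p) (addG p) where
  inc {B} _ _ := (addS B).subtype
  inc_map _ _ := rfl
  inc_sc _ _ := rfl
  inc_inj {B} _ _ := (addS B).subtype_injective
  x₀ {B} _ _ := aPt p B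
  x₀_map φ := comp_aPt φ
  x₀_sc u := by
    change scI u (aPt p _) = aPt p _
    rw [scI_eq, act_aPt (lin_inv_smul_addLaw u)]
  stab {B} _ _ g := by
    change actI g (aPt p B) = aPt p B ↔ _
    rw [actI_aPt_iff]
    constructor
    · intro h
      exact ⟨⟨g, h⟩, rfl⟩
    · rintro ⟨k, rfl⟩
      exact k.2
  s x := sI x
  s_map φ x := sI_comp φ x
  s_sc u x := sI_scI u x
  s_smul x := actI_sI x
  s_x₀ := sI_aPt

/-- the trivial coefficients -/
@[reducible] def resI (p : ℕ) [Fact p.Prime] :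
    ResRep (XI p) (shapI p) (triv (strictG p)) (triv (addG p)) where
  e {B} _ _ := LinearEquiv.refl B B
  e_map _ _ := rfl
  e_sc _ _ := rfl
  e_smul _ _ := rfl

/-- `fI` is the restriction to the additive point -/
theorem ofP_fI {n : ℕ} (z : Cob (QIinf p) n) : ofP (fI p n z) = Shap.res (resI p) (ofI z) :=
  Coch.ext' fun x g => evG_fI g z

end Vale.Agent.P257.H93

end
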